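import Crest.Agent.N49.To.Hu
import Crest.Agent.N49.Po.Mix

/-!
# Row 49 (helper12): approximate MH₁ on a lattice, from a local Bogolyubov property
-/

set_option autoImplicit false
open Finset Matrix
open scoped BigOperators

namespace Crest.Agent.N49.Lo

open La

section nr
variable {V : Type*} [SeminormedAddCommGroup V] {Z : AddSubgroup V} {a b : ℝ} {x y : V}

/-- `x ∈ Z + ball a` -/
def Nr (Z : AddSubgroup V) (a : ℝ) (x : V) : Prop := ∃ z ∈ Z, ‖x - z‖ ≤ a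

theorem Nr.mono (h : Nr Z a x) (k : a ≤ b) : Nr Z b x := let ⟨z, p, q⟩ := h; ⟨z, p, q.trans k⟩

theorem Nr.nonneg (h : Nr Z a x) : 0 ≤ a := let ⟨_, _, q⟩ := h; (norm_nonneg _).trans q

theorem Nr.of_eq (h : Nr Z a x) (e : x = y) : Nr Z a y := e ▸ h

theorem Nr.of_mem (h : x ∈ Z) (k : 0 ≤ a) : Nr Z a x := ⟨x, h, by simpa using k⟩

theorem Nr.of_norm (h : ‖x‖ ≤ a) : Nr Z a x := ⟨0, zero_mem _, by simpa using h⟩

theorem Nr.add (h : Nr Z a x) (k : Nr Z b y) : Nr Z (a + b) (x + y) :=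
  let ⟨z, p, q⟩ := h; let ⟨w, r, s⟩ := k
  ⟨z + w, add_mem p r, by rw [add_sub_add_comm]; exact norm_add_le_of_le q s⟩

theorem Nr.neg (h : Nr Z a x) : Nr Z a (-x) :=
  let ⟨z, p, q⟩ := h; ⟨-z, neg_mem p, by rwa [neg_sub_neg, norm_sub_rev]⟩

theorem Nr.sub (h : Nr Z a x) (k : Nr Z b y) : Nr Z (a + b) (x - y) :=
  (h.add k.neg).of_eq (sub_eq_add_neg _ _).symm

variable {G : Type*} [AddCommGroup G] {A : Set G} {ψ : G → V} {ε : ℝ}

/-- approximate Freiman `k`-homomorphisms modulo `Z` -/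
def AF (k : ℕ) (Z : AddSubgroup V) (ε : ℝ) (A : Set G) (ψ : G → V) : Prop :=
  ∀ u v : Fin k → G, (∀ i, u i ∈ A) → (∀ i, v i ∈ A) → ∑ i, u i = ∑ i, v i →
    Nr Z ε (∑ i, ψ (u i) - ∑ i, ψ (v i))

/-- `b = p 0 - p 1 + p 2 - p 3` with all `p i ∈ A` -/
def Rp (A : Set G) (b : G) (p : Fin 4 → G) : Prop := (∀ i, p i ∈ A) ∧ b = p 0 - p 1 + p 2 - p 3

/-- the value of a representation -/
def vl4 (ψ : G → V) (p : Fin 4 → G) : V := ψ (p 0) - ψ (p 1) + ψ (p 2) - ψ (p 3)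

theorem AF.add (h : AF 6 Z ε A ψ) {b c : G} {p q r : Fin 4 → G} (hp : Rp A b p) (hq : Rp A c q)
    (hr : Rp A (b + c) r) : Nr Z ε (vl4 ψ r - vl4 ψ p - vl4 ψ q) := by
  have e := hr.2
  rw [hp.2, hq.2] at e
  refine (h ![r 0, r 2, p 1, p 3, q 1, q 3] ![r 1, r 3, p 0, p 2, q 0, q 2]
    (by simp [Fin.forall_fin_succ, hp.1, hq.1, hr.1]) (by simp [Fin.forall_fin_succ, hp.1, hq.1, hr.1])
    (by simp only [Fin.sum_univ_succ]; simp; linear_combination (norm := abel1) -e)).of_eq ?_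
  simp only [Fin.sum_univ_succ, vl4]; simp; abel

theorem AF.eq (h : AF 6 Z ε A ψ) {b : G} {p r : Fin 4 → G} (hp : Rp A b p) (hr : Rp A b r) :
    Nr Z ε (vl4 ψ r - vl4 ψ p) := by
  simpa [vl4] using h.add (q := fun _ => p 0) (c := 0) hp ⟨fun _ => hp.1 0, by simp⟩
    (by rwa [add_zero])

end nr

/-- the lift `b ↦ (b, round (g l · b))` -/
noncomputable def lf {d κ : Type*} [Fintype d] (g : κ → d → ℝ) (b : d → ℤ) : d ⊕ κ → ℤ :=
  Sum.elim b fun l => round (g l ⬝ᵥ ci b)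

/-- **approximate MH₁** from a local Bogolyubov property -/
theorem amh_core {d κ E V : Type*} [Fintype d] [Fintype κ] [NormedAddCommGroup E]
    [NormedSpace ℝ E] [NormedAddCommGroup V] [NormedSpace ℝ V] [CompleteSpace V]
    (T : (d → ℝ) →L[ℝ] E) (hT : Function.Injective T) (g : κ → d → ℝ) {r η σ ε : ℝ} (hr : 0 < r)
    (hη : 0 < η) {A : Set (d → ℤ)} (hB : ∀ b, ‖T (ci b)‖ ≤ r →
      (∀ l, |g l ⬝ᵥ ci b - round (g l ⬝ᵥ ci b)| ≤ η) → ∃ p, Rp A b p)
    {Z : AddSubgroup V} (hZ : ∀ v ∈ Z, ‖v‖ < σ → v = 0) (hε : 0 < ε)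
    (hσ : 24 * (Fintype.card d + Fintype.card κ + 1) * ε < σ) {ψ : (d → ℤ) → V}
    (hψ : AF 6 Z ε A ψ) : ∃ L : (d ⊕ κ → ℤ) →+ V, ∀ b,
      ‖T (ci b)‖ ≤ r / (2 * (Fintype.card d + Fintype.card κ + 1)) →
      (∀ l, |g l ⬝ᵥ ci b - round (g l ⬝ᵥ ci b)| ≤ η / (2 * (Fintype.card d + Fintype.card κ + 1))) →
      ∀ p, Rp A b p → Nr Z (9 * (Fintype.card d + Fintype.card κ + 1) * ε) (vl4 ψ p - L (lf g b)) := by
  classical
  let S : (d ⊕ κ → ℝ) →ₗ[ℝ] E × (κ → ℝ) :=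
    { toFun := fun x => ((2 / r) • T (x ∘ Sum.inl), fun l => 2 / η * (g l ⬝ᵥ (x ∘ Sum.inl) - x (.inr l)))
      map_add' := fun x y => Prod.ext (by simp [Pi.add_comp]) (funext fun l => by
        simp [Pi.add_comp]; ring)
      map_smul' := fun c x => Prod.ext (by simp [Pi.smul_comp, smul_comm c]) (funext fun l => by
        simp [Pi.smul_comp]; ring) }
  have S0 : ∀ u : d ⊕ κ → ℤ, ‖(S (ci u)).1‖ = 2 / r * ‖T (ci (u ∘ Sum.inl))‖ := fun u => by
    rw [← Real.norm_of_nonneg (show 0 ≤ 2 / r by positivity), ← norm_smul]; rfl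
  have S1 : ∀ (u : d ⊕ κ → ℤ) l, ‖(S (ci u)).2 l‖ =
      2 / η * |g l ⬝ᵥ ci (u ∘ Sum.inl) - u (.inr l)| := fun u l => by
    rw [← abs_of_nonneg (show 0 ≤ 2 / η by positivity), ← abs_mul]; rfl
  have hS : Function.Injective S := (injective_iff_map_eq_zero S).2 fun x e => by
    have e0 : x ∘ Sum.inl = 0 := hT ((smul_eq_zero.1 (congrArg Prod.fst e)).resolve_left
      (by positivity) |>.trans (map_zero T).symm)
    ext (i | l)
    · exact congrFun e0 i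
    · have : 2 / η * (g l ⬝ᵥ (x ∘ Sum.inl) - x (.inr l)) = 0 := congrFun (congrArg Prod.snd e) l
      rw [e0] at this
      simpa using (mul_eq_zero.1 this).resolve_left (by positivity)
  have ne : ∀ u, ‖S (ci u)‖ ≤ 2 → ∃ p, Rp A (u ∘ Sum.inl) p := fun u hu => by
    refine hB _ ?_ fun l => (round_le _ (u (.inr l))).trans ?_
    · have := (norm_fst_le _).trans hu
      rw [S0, div_mul_eq_mul_div, div_le_iff₀ hr] at this
      linarith
    · have := (norm_le_pi_norm _ l).trans ((norm_snd_le _).trans hu)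
      rw [S1, div_mul_eq_mul_div, div_le_iff₀ hη] at this
      linarith
  let χ : (d → ℤ) → V := fun b => if k : ∃ p, Rp A b p then vl4 ψ k.choose else 0
  have hχ : ∀ b, (∃ p, Rp A b p) → ∃ p, Rp A b p ∧ χ b = vl4 ψ p := fun b k =>
    ⟨_, k.choose_spec, dif_pos k⟩
  obtain ⟨L, hL⟩ := To.hu S.toContinuousLinearMap hS Z hZ hε (by simpa using hσ)
    (fun u => χ (u ∘ Sum.inl)) fun u v hu hv => by
      replace hu : ‖S (ci u)‖ ≤ 1 := hu
      replace hv : ‖S (ci v)‖ ≤ 1 := hv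
      obtain ⟨p, hp, e1⟩ := hχ _ (ne u (by linarith))
      obtain ⟨q, hq, e2⟩ := hχ _ (ne v (by linarith))
      obtain ⟨s, hs, e3⟩ := hχ _ (ne (u + v) (by
        rw [map_add, map_add]; exact (norm_add_le _ _).trans (by linarith)))
      rw [e1, e2, e3]
      exact hψ.add hp hq hs
  refine ⟨L, fun b hb hg p hp => ?_⟩
  have n0 : (0 : ℝ) ≤ Fintype.card d + Fintype.card κ := by positivity
  have k : ‖S (ci (lf g b))‖ ≤ 1 / (Fintype.card d + Fintype.card κ + 1) := by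
    refine norm_prod_le_iff.2 ⟨?_, (pi_norm_le_iff_of_nonneg (by positivity)).2 fun l => ?_⟩
    · rw [S0]
      refine (mul_le_mul_of_nonneg_left hb (by positivity)).trans_eq ?_
      field_simp
    · rw [S1]
      refine (mul_le_mul_of_nonneg_left (hg l) (by positivity)).trans_eq ?_
      field_simp
  have e : Nr Z _ (χ b - L (lf g b)) := hL (lf g b) (by simpa using k)
  obtain ⟨q, hq, e1⟩ := hχ b ⟨p, hp⟩
  rw [e1, Fintype.card_sum, Nat.cast_add] at e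
  exact (((hψ.eq hq hp).add e).mono (by nlinarith)).of_eq (by abel)

/-- the norm of a positive definite form comes from an injective linear map -/
theorem exists_nq {d : Type} [Fintype d] [DecidableEq d] {M : Matrix d d ℝ} (hM : M.PosDef) :
    ∃ T : (d → ℝ) →L[ℝ] EuclideanSpace ℝ d, Function.Injective T ∧ ∀ x, ‖T x‖ = Po.nq hM x := by
  obtain ⟨A, hA, rfl⟩ := Po.exists_sqrt hM
  refine ⟨((WithLp.linearEquiv 2 ℝ (d → ℝ)).symm.toLinearMap ∘ₗ A.mulVecLin).toContinuousLinearMap,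
    (WithLp.linearEquiv 2 ℝ (d → ℝ)).symm.injective.comp
      (mulVec_injective_iff_isUnit.2 ((isUnit_iff_isUnit_det A).2 hA.isUnit)), fun x => ?_⟩
  rw [Po.nq_apply, Po.qf, ← mulVec_mulVec, dotProduct_mulVec, vecMul_transpose,
    EuclideanSpace.norm_eq]
  simp [dotProduct, sq]

end Crest.Agent.N49.Lo
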