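import Crest.Agent.N49.Lo.Defs
import Crest.Agent.N49.Po.Mix

/-!
# Row 49 (helper99): pushing a law on the lattice to a finite abelian group
-/

set_option autoImplicit false
set_option linter.unusedSectionVars false
open Finset Matrix MeasureTheory

noncomputable section

namespace Crest.Agent.N49.Lo

open Crest.Agent.N49.La Crest.Agent.N49.Po

variable {d : Type} [Fintype d] [DecidableEq d] {G : Type*} [AddCommGroup G] [Fintype G]

/-- reduction modulo `N` -/
def pz (d : Type) (N : ℕ) : (d → ℤ) →+ (d → ZMod N) := (Int.castAddHom (ZMod N)).compLeft d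

@[simp] theorem pz_apply (N : ℕ) (u : d → ℤ) (i : d) : pz d N u i = u i := rfl

theorem ci_eq_zc (u : d → ℤ) : ci u = zc u := rfl

/-- the image of a law on the lattice, as weights -/
def push (π : (d → ℤ) →+ G) (μ : Measure (d → ℤ)) (y : G) : ℝ := μ.real (π ⁻¹' {y})

theorem push_nonneg (π : (d → ℤ) →+ G) (μ : Measure (d → ℤ)) (y : G) : 0 ≤ push π μ y :=
  measureReal_nonneg

theorem sum_push (π : (d → ℤ) →+ G) (μ : Measure (d → ℤ)) [IsFiniteMeasure μ] (s : Finset G) :
    ∑ y ∈ s, push π μ y = μ.real (π ⁻¹' s) :=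
  sum_measureReal_preimage_singleton s fun _ _ => .of_discrete

theorem pr_push (π : (d → ℤ) →+ G) (μ : Measure (d → ℤ)) [IsProbabilityMeasure μ] :
    Pr (push π μ) :=
  ⟨push_nonneg π μ, by rw [sum_push]; simp⟩

theorem push_mono (π : (d → ℤ) →+ G) {μ ν : Measure (d → ℤ)} {K : ℝ}
    (h : ∀ S, μ.real S ≤ K * ν.real S) (y : G) : push π μ y ≤ K * push π ν y := h _

theorem tv_push (π : (d → ℤ) →+ G) {μ : Measure (d → ℤ)} [IsFiniteMeasure μ]
    {N : Seminorm ℝ (d → ℝ)} (h : To.QI N μ) (z : d → ℤ) :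
    tv (push π μ) (π z) ≤ 2 * N (ci z) := by
  classical
  set w := push π μ with hw
  set Q := univ.filter fun x => w (x + π z) < w x with hQ
  have e : tv w (π z) = ∑ x, (w (x + π z) - w x) + 2 * ∑ x ∈ Q, (w x - w (x + π z)) := by
    rw [hQ, sum_filter, mul_sum, ← sum_add_distrib]
    refine sum_congr rfl fun x _ => ?_
    split_ifs with c
    · rw [abs_of_neg (by linarith)]; ring
    · rw [abs_of_nonneg (by linarith)]; ring
  have e2 : ∑ x ∈ Q, w (x + π z) = μ.real ((fun u => π u - π z) ⁻¹' Q) := by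
    rw [← sum_measureReal_preimage_singleton Q fun _ _ => .of_discrete]
    refine sum_congr rfl fun x _ => ?_
    rw [hw, push]
    congr 1
    ext u
    simp [sub_eq_iff_eq_add]
  have h2 : μ.real ((· + z) '' (π ⁻¹' Q)) ≤ μ.real ((fun u => π u - π z) ⁻¹' Q) :=
    measureReal_mono (by rintro _ ⟨u, hu, rfl⟩; simpa using hu)
  rw [e, sum_sub_distrib, sum_shift, sub_self, zero_add, sum_sub_distrib, e2, hw, sum_push]
  linarith [h (π ⁻¹' Q) z]

theorem sum_push_smul (π : (d → ℤ) →+ G) (μ : Measure (d → ℤ)) [IsFiniteMeasure μ] {E : Type*}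
    [NormedAddCommGroup E] [NormedSpace ℝ E] [CompleteSpace E] (F : G → E) :
    ∑ y, push π μ y • F y = ∫ x, F (π x) ∂μ := by
  have e : ∀ x, F (π x) = ∑ y, (π ⁻¹' {y}).indicator (fun _ => F y) x := fun x => by
    rw [sum_eq_single (π x) (fun y _ c => Set.indicator_of_notMem (fun k => c k.symm) _) (by simp),
      Set.indicator_of_mem (by simp)]
  simp only [e]
  rw [integral_finsetSum _ fun y _ => (integrable_const _).indicator .of_discrete]
  exact sum_congr rfl fun y _ => (integral_indicator_const _ .of_discrete).symm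

theorem sum_push_mul (π : (d → ℤ) →+ G) (μ : Measure (d → ℤ)) [IsFiniteMeasure μ] (F : G → ℝ) :
    ∑ y, push π μ y * F y = ∫ x, F (π x) ∂μ := sum_push_smul π μ F

theorem wf_push (π : (d → ℤ) →+ G) (μ : Measure (d → ℤ)) [IsFiniteMeasure μ] (γ : AddChar G ℂ) :
    wf (push π μ) γ = ∫ x, γ (π x) ∂μ := by
  rw [← sum_push_smul π μ γ]; rfl

/-- every character of the quotient has a real frequency -/
theorem exists_freq (π : (d → ℤ) →+ G) (γ : AddChar G ℂ) :
    ∃ ξ : d → ℝ, ∀ b, γ (π b) = ee (ξ ⬝ᵥ zc b) := by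
  refine ⟨fun i => (γ (π (Pi.single i 1))).arg / (2 * Real.pi), fun b => ?_⟩
  have k : ∀ s : Finset d, γ (π (∑ i ∈ s, b i • Pi.single i 1)) =
      ee (∑ i ∈ s, (γ (π (Pi.single i 1))).arg / (2 * Real.pi) * b i) := fun s => by
    induction s using Finset.induction_on with
    | empty => simp [ee_zero]
    | insert a s ha ih =>
      rw [sum_insert ha, sum_insert ha, map_add, AddChar.map_add_eq_mul, ih, ee_add, map_zsmul,
        AddChar.map_zsmul_eq_zpow]
      congr 1
      have := Complex.norm_mul_exp_arg_mul_I (γ (π (Pi.single a 1)))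
      rw [Sa.norm_char, Complex.ofReal_one, one_mul] at this
      nth_rewrite 1 [← this]
      rw [← Complex.exp_int_mul, ee]
      congr 1
      have : (Real.pi : ℂ) ≠ 0 := by exact_mod_cast Real.pi_ne_zero
      push_cast; field_simp
  have := k univ
  rwa [← pi_eq_sum_univ'] at this

theorem norm_ee_sub_one (t : ℝ) : ‖ee t - 1‖ ≤ 8 * |t - round t| := by
  have e : ee t = Complex.exp (Complex.I * (2 * Real.pi * (t - round t) : ℝ)) := by
    rw [ee, Complex.exp_eq_exp_iff_exists_int]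
    exact ⟨round t, by push_cast; ring⟩
  rw [e]
  refine Real.norm_exp_I_mul_ofReal_sub_one_le.trans ?_
  rw [Real.norm_eq_abs, abs_mul, abs_of_pos Real.two_pi_pos]
  exact mul_le_mul_of_nonneg_right (by linarith [Real.pi_le_four]) (abs_nonneg _)

theorem exists_xi (π : (d → ℤ) →+ G) (γ : AddChar G ℂ) :
    ∃ ξ : d → ℝ, ∀ b, ‖γ (π b) - 1‖ ≤ 8 * |ξ ⬝ᵥ zc b - round (ξ ⬝ᵥ zc b)| :=
  let ⟨ξ, h⟩ := exists_freq π γ
  ⟨ξ, fun b => h b ▸ norm_ee_sub_one _⟩

variable {M : Matrix d d ℝ}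

theorem gs_mul_sqrt (hM : M.PosDef) (x : d → ℝ) (c : ℝ) :
    gs M x * √(qf M x) ≤ Real.exp (-c) * gs ((2⁻¹ : ℝ) • M) x + c * gs M x := by
  have q0 := qf_nonneg hM x
  have h1 : √(qf M x) ≤ Real.exp (Real.pi * qf M x / 2 - c) + c := by
    have := Real.add_one_le_exp (Real.pi * qf M x / 2 - c)
    nlinarith [Real.sq_sqrt q0, sq_nonneg (√(qf M x) - 1), Real.pi_gt_three]
  refine (mul_le_mul_of_nonneg_left h1 (gs_pos M x).le).trans (le_of_eq ?_)
  rw [mul_add, mul_comm _ c, gs, gs, qf_smul, ← Real.exp_add, ← Real.exp_add]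
  congr 2; ring

theorem summable_sqrt (hM : M.PosDef) (θ : d → ℝ) :
    Summable fun n : d → ℤ => gs M (zc n - θ) * √(qf M (zc n - θ)) :=
  .of_nonneg_of_le (fun _ => mul_nonneg (gs_pos _ _).le (Real.sqrt_nonneg _))
    (fun n => gs_mul_sqrt hM _ 0) (((summable_gs (hM.smul (by norm_num)) θ).mul_left _).add
      ((summable_gs hM θ).mul_left _))

theorem tsum_sqrt (hM : M.PosDef) : ∑' n : d → ℤ, gs M (zc n - 0) * √(qf M (zc n - 0)) ≤
    (Fintype.card d + 1) * th M 0 := by
  have h := th_scale hM (show (0 : ℝ) < 2⁻¹ by norm_num) (by norm_num) 0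
  rw [Real.sqrt_inv, inv_inv] at h
  refine (hasSum_le (fun n => gs_mul_sqrt hM _ (Fintype.card d)) (summable_sqrt hM 0).hasSum
    (((summable_gs (hM.smul (by norm_num)) 0).hasSum.mul_left _).add
      ((summable_gs hM 0).hasSum.mul_left _))).trans ?_
  have : Real.exp (-Fintype.card d) * √2 ^ Fintype.card d ≤ 1 := by
    rw [Real.exp_neg, inv_mul_le_one₀ (Real.exp_pos _), ← Real.exp_one_pow]
    refine pow_le_pow_left₀ (Real.sqrt_nonneg _) (Real.sqrt_le_iff.2 ⟨(Real.exp_pos _).le, ?_⟩) _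
    nlinarith [Real.add_one_le_exp 1]
  change Real.exp _ * th _ 0 + _ * th M 0 ≤ _
  nlinarith [mul_le_mul_of_nonneg_left h (Real.exp_pos (-Fintype.card d)).le,
    mul_le_mul_of_nonneg_right this (th_nonneg M 0)]

theorem nq_scale (hM : M.PosDef) {s : ℝ} (hs : 0 < s) (x : d → ℝ) :
    nq hM x = √(qf (s ^ 2 • M) x) / s := by
  rw [qf_smul, Real.sqrt_mul (sq_nonneg s), Real.sqrt_sq hs.le, nq_apply]; field_simp

theorem gm_nq (hM : M.PosDef) {s : ℝ} (hs : 0 < s) (n : d → ℤ) :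
    (ENNReal.ofReal (gs (s ^ 2 • M) (zc n - 0) / th (s ^ 2 • M) 0)).toReal * nq hM (ci n) =
      gs (s ^ 2 • M) (zc n - 0) * √(qf (s ^ 2 • M) (zc n - 0)) / th (s ^ 2 • M) 0 / s := by
  rw [ENNReal.toReal_ofReal (div_nonneg (gs_pos _ _).le (th_nonneg _ _)), nq_scale hM hs, sub_zero,
    ci_eq_zc]
  ring

theorem integrable_nq (hM : M.PosDef) {s : ℝ} (hs : 0 < s) :
    Integrable (fun x => nq hM (ci x)) (gm (s ^ 2 • M) 0) := by
  refine integrable_sum_dirac (fun _ => ENNReal.ofReal_ne_top) ?_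
  simp only [Real.norm_of_nonneg (apply_nonneg (nq hM) _), gm_nq hM hs]
  exact ((summable_sqrt (hM.smul (pow_pos hs 2)) 0).div_const _).div_const _

/-- first moment of a centred discrete Gaussian -/
theorem integral_nq (hM : M.PosDef) {s : ℝ} (hs : 0 < s) :
    ∫ x, nq hM (ci x) ∂gm (s ^ 2 • M) 0 ≤ (Fintype.card d + 2) / s := by
  have hM' := hM.smul (pow_pos hs 2)
  rw [gm, integral_sum_dirac fun _ => ENNReal.ofReal_ne_top]
  simp only [smul_eq_mul, gm_nq hM hs]
  rw [tsum_div_const, tsum_div_const]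
  refine div_le_div_of_nonneg_right ?_ hs.le
  rw [div_le_iff₀ (th_pos hM' 0)]
  nlinarith [tsum_sqrt hM', th_nonneg (s ^ 2 • M) 0]

/-- mean total variation of `push μ` under shifts drawn from a narrower Gaussian -/
theorem sum_push_tv (π : (d → ℤ) →+ G) (hM : M.PosDef) {s c : ℝ} (hs : 0 < s) (hc : 0 ≤ c)
    {μ : Measure (d → ℤ)} [IsFiniteMeasure μ] {N : Seminorm ℝ (d → ℝ)} (h : To.QI N μ)
    (hN : ∀ x, N x ≤ c * nq hM x) :
    ∑ t, push π (gm (s ^ 2 • M) 0) t * tv (push π μ) t ≤ 2 * c * ((Fintype.card d + 2) / s) := by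
  have := gm_prob (hM.smul (pow_pos hs 2)) 0
  rw [sum_push_mul]
  refine le_trans (integral_mono_of_nonneg (.of_forall fun x => tv_nonneg _ _)
    ((integrable_nq hM hs).const_mul (2 * c)) (.of_forall fun x => ?_)) ?_
  · linarith [tv_push π h x, hN (ci x)]
  · rw [integral_const_mul]
    exact mul_le_mul_of_nonneg_left (integral_nq hM hs) (by positivity)

end Crest.Agent.N49.Lo
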