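import Crest.Agent.N49.Lo.Defs

/-!
# Row 49 (helper72): the local bootstrap from almost periods to Bohr sets
-/

set_option autoImplicit false
open Finset
open scoped BigOperators ComplexConjugate

namespace Crest.Agent.N49.Lo

variable {G : Type*} [AddCommGroup G] [Fintype G]

theorem parseval (w : G → ℝ) : ∑ γ, ‖wf w γ‖ ^ 2 = Fintype.card G * ∑ x, w x ^ 2 := by
  classical
  apply Complex.ofReal_injective
  push_cast
  simp only [← Complex.mul_conj', wf, map_sum, mul_sum, sum_mul, map_mul, Complex.conj_ofReal]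
  rw [sum_comm]
  refine sum_congr rfl fun x _ => ?_
  rw [sum_comm]
  have e : ∀ y, ∑ γ : AddChar G ℂ, (w y : ℂ) * γ y * (w x * conj (γ x)) =
      if y = x then Fintype.card G * (w x : ℂ) ^ 2 else 0 := fun y => by
    simp only [mul_mul_mul_comm (w y : ℂ), ← AddChar.map_neg_eq_conj, ← AddChar.map_add_eq_mul]
    rw [← mul_sum, AddChar.sum_apply_eq_ite]
    by_cases c : y = x
    · simp [c]; ring
    · rw [if_neg c, if_neg fun k => c (add_neg_eq_zero.1 k), mul_zero]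
  simp only [e, sum_ite_eq', mem_univ, if_true]

theorem ex_wf (f : G → ℝ) : Sa.Ex f fun γ => conj (wf f γ) / Fintype.card G := by
  convert Sa.ex_ft f using 2 with γ
  rw [expect_eq_sum_div_card, card_univ, wf, map_sum]
  simp only [map_mul, Complex.conj_ofReal]

theorem ex_T {φ : G → ℝ} {c : AddChar G ℂ → ℂ} (h : Sa.Ex φ c) (a b : G → ℝ) :
    Sa.Ex (T a b φ) fun γ => c γ * (wf a γ * conj (wf b γ)) := fun z => by
  simp only [T, Complex.ofReal_sum, Complex.ofReal_mul, h _, wf, map_sum, mul_sum, sum_mul, map_mul,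
    Complex.conj_ofReal]
  rw [sum_comm (s := univ (α := AddChar G ℂ))]
  refine sum_congr rfl fun y _ => ?_
  rw [sum_comm]
  refine sum_congr rfl fun γ _ => sum_congr rfl fun x _ => ?_
  rw [sub_eq_add_neg, AddChar.map_add_eq_mul, AddChar.map_add_eq_mul, AddChar.map_neg_eq_conj]; ring

theorem ex_iter {φ : G → ℝ} {c : AddChar G ℂ → ℂ} (h : Sa.Ex φ c) (ν : G → ℝ) (k : ℕ) :
    Sa.Ex ((T ν ν)^[k] φ) fun γ => c γ * (‖wf ν γ‖ ^ 2 : ℝ) ^ k := by
  induction k with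
  | zero => simpa using h
  | succ k ih =>
    rw [Function.iterate_succ_apply']
    convert ex_T ih ν ν using 2 with γ
    rw [Complex.mul_conj', pow_succ]; push_cast; ring

theorem Pr.abs_le {α : Type*} [Fintype α] {w F : α → ℝ} (hw : Pr w) {c B : ℝ}
    (h : ∀ x, w x ≠ 0 → |F x - c| ≤ B) : |∑ x, w x * F x - c| ≤ B := by
  rw [← hw.const c, ← hw.const B, ← sum_sub_distrib]
  refine (abs_sum_le_sum_abs _ _).trans (sum_le_sum fun x _ => ?_)
  rw [← mul_sub, abs_mul, abs_of_nonneg (hw.1 x)]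
  by_cases k : w x = 0
  · simp [k]
  · exact mul_le_mul_of_nonneg_left (h x k) (hw.1 x)

theorem T_near {ν β Φ : G → ℝ} (hν : Pr ν) {η τ R : ℝ} (τ0 : 0 ≤ τ) (hτ : ∀ s, ν s ≠ 0 → tv β s ≤ τ)
    (h : ∀ s t, ν s ≠ 0 → ν t ≠ 0 → ∀ z, tv β z ≤ R → |Φ (z - s) - Φ (z - t)| ≤ η) (k : ℕ) :
    ∀ z, tv β z + 2 * k * τ ≤ R → |(T ν ν)^[k] Φ z - Φ z| ≤ k * η := by
  induction k with
  | zero => simp
  | succ k ih =>
    intro z hz
    rw [Function.iterate_succ_apply']
    refine hν.abs_le fun s hs => hν.abs_le fun t ht => ?_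
    push_cast at hz ⊢
    have k0 : 0 ≤ (k : ℝ) * τ := by positivity
    have p := ih (z - s + t) (by linarith [tv_add β (z - s) t, tv_sub β z s, hτ s hs, hτ t ht])
    have q := h s t hs ht (z + t) (by linarith [tv_add β z t, hτ t ht])
    rw [add_sub_cancel_right, show z + t - s = z - s + t by abel] at q
    linarith [abs_sub_le ((T ν ν)^[k] Φ (z - s + t)) (Φ (z - s + t)) (Φ z)]

theorem boot {a u v ν β : G → ℝ} (ha : Pr a) (hν : Pr ν) {K η τ R ρ : ℝ} (hu : ∑ x, u x ^ 2 ≤ K)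
    (hv : ∑ x, v x ^ 2 ≤ K) (τ0 : 0 ≤ τ) (hτ : ∀ s, ν s ≠ 0 → tv β s ≤ τ)
    (h : ∀ s t, ν s ≠ 0 → ν t ≠ 0 → ∀ z, tv β z ≤ R → |T a u v (z - s) - T a u v (z - t)| ≤ η)
    {k : ℕ} (hk : 2 / 4 ^ k ≤ ρ) {b : G} (hb : ∀ γ, 1 / 2 ≤ ‖wf ν γ‖ → ‖γ b - 1‖ ≤ ρ) {z : G}
    (hz : tv β z + tv β b + 2 * k * τ ≤ R) :
    |T a u v (z + b) - T a u v z| ≤ 2 * k * η + K * ρ := by
  have e := ex_iter (ex_T (ex_wf v) a u) ν k
  have ρ0 : 0 ≤ ρ := le_trans (by positivity) hk
  have g0 : (0 : ℝ) < Fintype.card G := by exact_mod_cast Fintype.card_pos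
  have key : |(T ν ν)^[k] (T a u v) (z + b) - (T ν ν)^[k] (T a u v) z| ≤ K * ρ := by
    rw [← Real.norm_eq_abs, ← Complex.norm_real, Complex.ofReal_sub, e, e, ← sum_sub_distrib]
    calc _ ≤ ∑ γ : AddChar G ℂ, (‖wf v γ‖ ^ 2 + ‖wf u γ‖ ^ 2) / (2 * Fintype.card G) * ρ :=
          (norm_sum_le _ _).trans (sum_le_sum fun γ _ => ?_)
      _ = (∑ x, v x ^ 2 + ∑ x, u x ^ 2) / 2 * ρ := by
          rw [← sum_mul, ← sum_div, sum_add_distrib, parseval, parseval]; field_simp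
      _ ≤ K * ρ := mul_le_mul_of_nonneg_right (by linarith) ρ0
    rw [← mul_sub, AddChar.map_add_eq_mul, ← mul_sub_one, mul_assoc, norm_mul, norm_mul, norm_mul,
      norm_mul, norm_mul, Sa.norm_char, one_mul, Complex.norm_conj, norm_pow, Complex.norm_real,
      Real.norm_eq_abs, abs_of_nonneg (sq_nonneg _), norm_div, Complex.norm_conj,
      Complex.norm_natCast]
    refine mul_le_mul ?_ ?_ (by positivity) (by positivity)
    · rw [div_mul_eq_mul_div, div_le_div_iff₀ g0 (by positivity), ← mul_assoc]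
      refine mul_le_mul_of_nonneg_right ?_ g0.le
      have := mul_le_mul_of_nonneg_left (mul_le_of_le_one_left (norm_nonneg (wf u γ))
        (norm_wf ha γ)) (norm_nonneg (wf v γ))
      nlinarith [sq_nonneg (‖wf v γ‖ - ‖wf u γ‖)]
    · by_cases c : 1 / 2 ≤ ‖wf ν γ‖
      · exact (mul_le_of_le_one_left (norm_nonneg _) (pow_le_one₀ (sq_nonneg _)
          (pow_le_one₀ (norm_nonneg _) (norm_wf hν _)))).trans (hb γ c)
      · have u : ‖γ b - 1‖ ≤ 2 := (norm_sub_le _ _).trans (by rw [Sa.norm_char, norm_one]; norm_num)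
        have v : (‖wf ν γ‖ ^ 2) ^ k ≤ (1 / 4) ^ k :=
          pow_le_pow_left₀ (sq_nonneg _) (by nlinarith [norm_nonneg (wf ν γ)]) _
        refine (mul_le_mul v u (norm_nonneg _) (by positivity)).trans (le_trans (le_of_eq ?_) hk)
        rw [one_div, inv_pow]; ring
  have p := T_near hν τ0 hτ h k (z + b) (by linarith [tv_add β z b])
  have q := T_near hν τ0 hτ h k z (by linarith [tv_nonneg β b])
  rw [abs_le] at *
  constructor <;> linarith [p.1, p.2, q.1, q.2, key.1, key.2]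

omit [AddCommGroup G] in
theorem sum_sq_div {b β : G → ℝ} (hb : Pr b) (hβ : Pr β) {K : ℝ} (h : ∀ x, b x ≤ K * β x) :
    ∑ y, (b y / √(β y)) ^ 2 ≤ K := by
  refine (sum_le_sum (g := fun y => b y * K) fun y _ => ?_).trans_eq (hb.const K)
  rw [div_pow, Real.sq_sqrt (hβ.1 y)]
  rcases (hβ.1 y).eq_or_lt with k | k
  · have := h y
    rw [← k, mul_zero] at this
    rw [le_antisymm this (hb.1 y)]; simp
  · rw [div_le_iff₀ k, sq, mul_assoc]; exact mul_le_mul_of_nonneg_left (h y) (hb.1 y)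

/-- localisation of the test function -/
theorem T_loc {a b β f : G → ℝ} (ha : Pr a) (hb : Pr b) (hβ : Pr β) {K r : ℝ} (r0 : 0 < r)
    (h : ∀ x, b x ≤ K * β x) (f1 : ∀ x, |f x| ≤ 1) (z : G) :
    |T a (fun y => b y / √(β y)) (fun p => √(β (-p)) * f p) z - T a b f z| ≤
      (r * K + (tv β z + ∑ x, a x * tv β x) / r) / 2 := by
  have e : ∀ u v : G → ℝ, T a u v z = ∑ x, a x * ∑ y, u y * v (z - y + x) := fun u v => by
    simp only [T, mul_sum]
    rw [sum_comm]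
    exact sum_congr rfl fun _ _ => sum_congr rfl fun _ _ => by ring
  rw [e, e, ← sum_sub_distrib]
  calc _ ≤ ∑ x, a x * ((r * K + (tv β z + tv β x) / r) / 2) :=
        (abs_sum_le_sum_abs _ _).trans (sum_le_sum fun x _ => ?_)
    _ = _ := by
      simp only [← mul_div_assoc, mul_add, ← sum_div, sum_add_distrib, ha.const]
  rw [← mul_sub, abs_mul, abs_of_nonneg (ha.1 x), ← sum_sub_distrib]
  refine mul_le_mul_of_nonneg_left ?_ (ha.1 x)
  calc _ ≤ ∑ y, (r * (b y / √(β y)) ^ 2 + |β (y + -(z + x)) - β y| / r) / 2 :=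
        (abs_sum_le_sum_abs _ _).trans (sum_le_sum fun y _ => ?_)
    _ ≤ _ := by
      rw [← sum_div, sum_add_distrib, ← mul_sum, ← sum_div, ← tv, tv_neg]
      have := mul_le_mul_of_nonneg_left (sum_sq_div hb hβ h) r0.le
      have := div_le_div_of_nonneg_right (tv_add β z x) r0.le
      linarith
  obtain ⟨u, hu⟩ : ∃ u, u = b y / √(β y) := ⟨_, rfl⟩
  have e1 : b y = u * √(β y) := by
    rcases (hβ.1 y).eq_or_lt with k | k
    · have := h y
      rw [← k, mul_zero] at this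
      rw [le_antisymm this (hb.1 y), ← k]; simp
    · rw [hu, div_mul_cancel₀ _ (Real.sqrt_pos.2 k).ne']
  rw [← hu, e1, show -(z - y + x) = y + -(z + x) by abel, mul_assoc, ← mul_sub, ← sub_mul, abs_mul,
    abs_mul]
  obtain ⟨p, hp⟩ : ∃ p, p = √(β (y + -(z + x))) := ⟨_, rfl⟩
  obtain ⟨q, hq⟩ : ∃ q, q = √(β y) := ⟨_, rfl⟩
  have p0 : 0 ≤ p := hp ▸ Real.sqrt_nonneg _
  have q0 : 0 ≤ q := hq ▸ Real.sqrt_nonneg _
  rw [← Real.sq_sqrt (hβ.1 (y + -(z + x))), ← Real.sq_sqrt (hβ.1 y), Real.sqrt_sq (Real.sqrt_nonneg _),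
    Real.sqrt_sq (Real.sqrt_nonneg _), ← hp, ← hq]
  have d : |p - q| ^ 2 ≤ |p ^ 2 - q ^ 2| := by
    rw [sq_sub_sq, abs_mul, sq]
    exact mul_le_mul_of_nonneg_right (abs_le.2 ⟨by linarith [le_abs_self (p + q)],
      by linarith [le_abs_self (p + q)]⟩) (abs_nonneg _)
  have d2 := mul_le_mul_of_nonneg_left (mul_le_of_le_one_right (abs_nonneg (p - q)) (f1 (z - y + x)))
    (abs_nonneg u)
  refine d2.trans (le_trans ?_ (div_le_div_of_nonneg_right (add_le_add_right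
    (div_le_div_of_nonneg_right d r0.le) _) zero_le_two))
  rw [← sq_abs u, le_div_iff₀ two_pos, ← sub_nonneg]
  have : r * |u| ^ 2 + |p - q| ^ 2 / r - |u| * |p - q| * 2 = (r * |u| - |p - q|) ^ 2 / r := by
    field_simp; ring
  rw [this]; positivity

end Crest.Agent.N49.Lo
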