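import Crest.Agent.N49.Lo.Defs

/-!
# Row 49 (helper64): local almost periods by sampling (weighted Croot–Sisask lemma)
-/

set_option autoImplicit false
open Finset
open scoped BigOperators

namespace Crest.Agent.N49.Lo

namespace Csa

variable {α : Type*} [Fintype α]

/-- product weight -/
def pw (a : α → ℝ) {l : ℕ} (u : Fin l → α) : ℝ := ∏ i, a (u i)

theorem sum_pw (a : α → ℝ) (l : ℕ) : ∑ u : Fin l → α, pw a u = (∑ x, a x) ^ l := by
  rw [Fintype.sum_pow]; rfl

theorem pr_pw {a : α → ℝ} (ha : Pr a) (l : ℕ) : Pr (pw a : (Fin l → α) → ℝ) :=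
  ⟨fun _ => prod_nonneg fun _ _ => ha.1 _, by rw [sum_pw, ha.2, one_pow]⟩

theorem tv_pw {p q : α → ℝ} (hp : Pr p) (hq : Pr q) (l : ℕ) :
    ∑ u : Fin l → α, |pw p u - pw q u| ≤ l * ∑ x, |p x - q x| := by
  induction l with
  | zero => simp [pw]
  | succ l ih =>
    rw [← (Fin.consEquiv fun _ => α).sum_comp, Fintype.sum_prod_type]
    have h : ∀ (x : α) (u : Fin l → α), |pw p (Fin.consEquiv (fun _ => α) (x, u)) -
        pw q (Fin.consEquiv (fun _ => α) (x, u))| ≤
          |p x - q x| * pw p u + q x * |pw p u - pw q u| := fun x u => by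
      have e : pw p (Fin.consEquiv (fun _ => α) (x, u)) - pw q (Fin.consEquiv (fun _ => α) (x, u)) =
          (p x - q x) * pw p u + q x * (pw p u - pw q u) := by
        simp only [pw, Fin.prod_univ_succ, Fin.consEquiv_apply, Fin.cons_zero, Fin.cons_succ]
        ring
      rw [e]
      refine (abs_add_le _ _).trans (le_of_eq ?_)
      rw [abs_mul, abs_mul, abs_of_nonneg ((pr_pw hp l).1 u), abs_of_nonneg (hq.1 x)]
    refine (sum_le_sum fun x _ => sum_le_sum fun u _ => h x u).trans ?_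
    simp only [sum_add_distrib, ← mul_sum, ← sum_mul, (pr_pw hp l).2, hq.2]
    push_cast
    linarith

/-- Hoeffding's inequality for weighted samples -/
theorem hoeff {a : α → ℝ} (ha : Pr a) {y : α → ℝ} (h1 : ∀ x, |y x| ≤ 1)
    (h0 : ∑ x, a x * y x = 0) (l : ℕ) {ε : ℝ} (hε : 0 ≤ ε) :
    ∑ u : Fin l → α, pw a u * (if ε * l < |∑ i, y (u i)| then (1 : ℝ) else 0) ≤
      2 * Real.exp (-(ε ^ 2 / 2 * l)) := by
  have mg : ∀ t : ℝ, ∑ u : Fin l → α, pw a u * Real.exp (t * ∑ i, y (u i)) ≤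
      Real.exp (t ^ 2 / 2 * l) := fun t => by
    have e : ∀ u : Fin l → α, pw a u * Real.exp (t * ∑ i, y (u i)) =
        pw (fun x => a x * Real.exp (t * y x)) u := fun u => by
      simp only [pw, mul_sum, Real.exp_sum, prod_mul_distrib]
    simp only [e]
    rw [sum_pw, mul_comm _ (l : ℝ), Real.exp_nat_mul]
    refine pow_le_pow_left₀ (sum_nonneg fun x _ => mul_nonneg (ha.1 x) (Real.exp_pos _).le) ?_ _
    calc _ ≤ ∑ x, a x * (Real.cosh t + y x * Real.sinh t) := sum_le_sum fun x _ =>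
          mul_le_mul_of_nonneg_left
            (by rw [mul_comm]; exact Real.exp_mul_le_cosh_add_mul_sinh (h1 x) t) (ha.1 x)
      _ = Real.cosh t := by
          simp only [mul_add, sum_add_distrib, ← mul_assoc, ← sum_mul, ha.2, h0]; simp
      _ ≤ _ := Real.cosh_le_exp_half_sq t
  have e : Real.exp (-(ε ^ 2 / 2 * l)) = Real.exp (-(ε ^ 2 * l)) * Real.exp (ε ^ 2 / 2 * l) := by
    rw [← Real.exp_add]; congr 1; ring
  calc _ ≤ ∑ u : Fin l → α, pw a u * (Real.exp (-(ε ^ 2 * l)) *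
        (Real.exp (ε * ∑ i, y (u i)) + Real.exp (-ε * ∑ i, y (u i)))) :=
        sum_le_sum fun u _ => mul_le_mul_of_nonneg_left ?_ ((pr_pw ha l).1 u)
    _ ≤ Real.exp (-(ε ^ 2 * l)) * (Real.exp (ε ^ 2 / 2 * l) + Real.exp ((-ε) ^ 2 / 2 * l)) := by
      simp only [mul_left_comm _ (Real.exp (-(ε ^ 2 * l)))]
      rw [← mul_sum]
      simp only [mul_add (pw a _), sum_add_distrib]
      exact mul_le_mul_of_nonneg_left (add_le_add (mg _) (mg _)) (Real.exp_pos _).le
    _ = _ := by rw [e, neg_sq]; ring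
  split_ifs with c
  · rw [mul_add, ← Real.exp_add, ← Real.exp_add]
    have p := Real.exp_pos (-(ε ^ 2 * l) + ε * ∑ i, y (u i))
    have q := Real.exp_pos (-(ε ^ 2 * l) + -ε * ∑ i, y (u i))
    rcases lt_abs.1 c with k | k
    · have := Real.one_le_exp (x := -(ε ^ 2 * l) + ε * ∑ i, y (u i)) (by nlinarith); linarith
    · have := Real.one_le_exp (x := -(ε ^ 2 * l) + -ε * ∑ i, y (u i)) (by nlinarith); linarith
  · positivity

/-- Markov's inequality -/
theorem markov {w m : α → ℝ} (w0 : ∀ x, 0 ≤ w x) (m0 : ∀ x, 0 ≤ m x) (c : ℝ) :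
    c * ∑ x, w x * (if m x ≤ c then (0 : ℝ) else 1) ≤ ∑ x, w x * m x := by
  rw [mul_sum]
  refine sum_le_sum fun x _ => ?_
  rw [mul_left_comm]
  refine mul_le_mul_of_nonneg_left ?_ (w0 x)
  split_ifs with k
  · simpa using m0 x
  · simpa using (not_le.1 k).le

end Csa

variable {G : Type*} [AddCommGroup G] [Fintype G]

open Csa in
/-- **local almost periods** -/
theorem cs {a b α β σ f : G → ℝ} (ha : Pr a) (hb : Pr b) (hα : Pr α) (hβ : Pr β) (hσ : Pr σ)
    {K : ℝ} (aα : ∀ x, a x ≤ K * α x) (bβ : ∀ x, b x ≤ K * β x) (f0 : ∀ x, 0 ≤ f x)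
    (f1 : ∀ x, f x ≤ 1) {l : ℕ} (hl : 0 < l) {ε τ : ℝ} (hε : 0 ≤ ε) (hτ : 0 < τ)
    (h1 : 8 * K ^ l * (l * ∑ t, σ t * tv α t) ≤ 1) (h2 : 8 * K ^ l * ∑ t, σ t * tv β t ≤ τ) :
    ∃ X : Finset G, 1 ≤ 4 * K ^ l * ∑ t ∈ X, σ t ∧ (∀ s ∈ X, tv β s ≤ τ) ∧
      ∀ s ∈ X, ∀ t ∈ X, ∀ z, |T a b f (z - s) - T a b f (z - t)| ≤
        2 * ε + K * (8 * Real.exp (-(ε ^ 2 / 2 * l)) + 2 * τ + 2 * tv β z) := by
  classical
  obtain ⟨δ, hδ⟩ : ∃ δ, δ = 2 * Real.exp (-(ε ^ 2 / 2 * l)) := ⟨_, rfl⟩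
  have δ0 : 0 < δ := by rw [hδ]; positivity
  have l0 : (0 : ℝ) < l := by exact_mod_cast hl
  have K1 : 1 ≤ K := by
    have := sum_le_sum fun x (_ : x ∈ univ) => aα x
    rwa [← mul_sum, ha.2, hα.2, mul_one] at this
  have K0 : 0 < K ^ l := by positivity
  obtain ⟨F, hF⟩ : ∃ F : G → ℝ, F = fun x => ∑ u, a u * f (x + u) := ⟨_, rfl⟩
  have F0 : ∀ x, 0 ≤ F x := fun x => by rw [hF]; exact ha.ge fun _ => f0 _
  have F1 : ∀ x, F x ≤ 1 := fun x => by rw [hF]; exact ha.le fun _ => f1 _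
  obtain ⟨I, hI⟩ : ∃ I : (Fin l → G) → G → ℝ,
    I = fun u x => if ε * l < |∑ i, (f (x + u i) - F x)| then 1 else 0 := ⟨_, rfl⟩
  have I0 : ∀ u x, 0 ≤ I u x := fun u x => by simp only [hI]; split_ifs <;> norm_num
  have I1 : ∀ u x, |I u x| ≤ 1 := fun u x => by simp only [hI]; split_ifs <;> norm_num
  obtain ⟨m, hm⟩ : ∃ m : (Fin l → G) → ℝ, m = fun u => ∑ y, β y * I u (-y) := ⟨_, rfl⟩
  have m0 : ∀ u, 0 ≤ m u := fun u => by rw [hm]; exact hβ.ge fun _ => I0 _ _
  have s1 : ∑ u, pw a u * m u ≤ δ := by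
    simp only [hm, mul_sum, mul_left_comm (pw a _)]
    rw [sum_comm]
    simp only [← mul_sum]
    refine hβ.le fun y => ?_
    rw [hδ, hI]
    refine hoeff ha (y := fun u => f (-y + u) - F (-y)) (fun u => ?_) ?_ l hε
    · have := f0 (-y + u); have := f1 (-y + u); have := F0 (-y); have := F1 (-y)
      rw [abs_le]; constructor <;> linarith
    · simp only [mul_sub, sum_sub_distrib, ha.const, hF, sub_self]
  obtain ⟨D, hD⟩ : ∃ D : (Fin l → G) → ℝ, D = fun u => if m u ≤ 2 * δ then 1 else 0 := ⟨_, rfl⟩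
  have D0 : ∀ u, 0 ≤ D u := fun u => by simp only [hD]; split_ifs <;> norm_num
  have D1 : ∀ u, |D u| ≤ 1 := fun u => by simp only [hD]; split_ifs <;> norm_num
  have s2 : 1 / 2 ≤ ∑ u, pw a u * D u := by
    have c1 := (markov (pr_pw ha l).1 m0 (2 * δ)).trans s1
    have c2 : ∑ u, pw a u * D u + ∑ u, pw a u * (if m u ≤ 2 * δ then (0 : ℝ) else 1) = 1 := by
      rw [← sum_add_distrib]
      exact (sum_congr rfl fun u _ => by simp only [hD]; split_ifs <;> simp).trans (pr_pw ha l).2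
    have c3 : 2 * ∑ u, pw a u * (if m u ≤ 2 * δ then (0 : ℝ) else 1) ≤ 1 :=
      le_of_mul_le_mul_left (by linarith) δ0
    linarith
  have s3 : 1 / 2 ≤ K ^ l * ∑ u, pw α u * D u := by
    refine s2.trans ?_
    rw [mul_sum]
    refine sum_le_sum fun u _ => ?_
    rw [← mul_assoc]
    refine mul_le_mul_of_nonneg_right ?_ (D0 u)
    calc _ ≤ ∏ i, K * α (u i) := prod_le_prod (fun _ _ => ha.1 _) fun _ _ => aα _
      _ = _ := by rw [prod_mul_distrib, prod_const, card_univ, Fintype.card_fin]; rfl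
  have s4 : ∀ t : G, ∑ u, pw α u * D u - l * tv α t ≤
      ∑ u : Fin l → G, pw α u * D fun i => u i + t := fun t => by
    have c1 := (abs_le.1 (abs_shift (pw α) D1 (-fun _ : Fin l => t))).1
    have c2 : tv (pw α) (fun _ : Fin l => t) ≤ l * tv α t :=
      tv_pw (p := fun x => α (x + t)) ⟨fun _ => hα.1 _, by rw [sum_shift t α, hα.2]⟩ hα l
    rw [tv_neg] at c1
    simp only [sub_neg_eq_add] at c1
    have e : ∀ u : Fin l → G, (u + fun _ => t) = fun i => u i + t := fun _ => rfl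
    simp only [e] at c1
    linarith
  obtain ⟨u, hu⟩ := (pr_pw hα l).exists_ge fun u : Fin l → G => ∑ t, σ t * D fun i => u i + t
  have s5 : ∑ u, pw α u * D u - l * ∑ t, σ t * tv α t ≤ ∑ t, σ t * D fun i => u i + t := by
    refine le_trans ?_ hu
    simp only [mul_sum, mul_left_comm (pw α _)]
    rw [sum_comm (s := univ) (t := univ) (f := fun (v : Fin l → G) (t : G) =>
      σ t * (pw α v * D fun i => v i + t))]
    simp only [← mul_sum]
    refine le_trans (le_of_eq ?_) (sum_le_sum fun t _ => mul_le_mul_of_nonneg_left (s4 t) (hσ.1 t))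
    simp only [mul_sub, sum_sub_distrib, hσ.const, mul_left_comm (σ _), ← mul_sum]
  have s6 := markov hσ.1 (tv_nonneg β) τ
  refine ⟨univ.filter fun t => m (fun i => u i + t) ≤ 2 * δ ∧ tv β t ≤ τ, ?_,
    fun s hs => (mem_filter.1 hs).2.2, fun s hs t ht z => ?_⟩
  · have c1 : ∑ t, σ t * (D fun i => u i + t) - ∑ t, σ t * (if tv β t ≤ τ then (0 : ℝ) else 1) ≤
        ∑ t ∈ univ.filter fun t => m (fun i => u i + t) ≤ 2 * δ ∧ tv β t ≤ τ, σ t := by
      rw [sum_filter, ← sum_sub_distrib]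
      refine sum_le_sum fun t _ => ?_
      have := hσ.1 t
      simp only [hD]
      by_cases k : m (fun i => u i + t) ≤ 2 * δ <;> by_cases k' : tv β t ≤ τ <;> simp [k, k', this]
    have c2 : 8 * K ^ l * ∑ t, σ t * (if tv β t ≤ τ then (0 : ℝ) else 1) ≤ 1 := by
      refine le_of_mul_le_mul_left ?_ hτ
      nlinarith
    nlinarith
  have bd : ∀ s ∈ univ.filter fun t => m (fun i => u i + t) ≤ 2 * δ ∧ tv β t ≤ τ,
      ∑ y, b y * I (fun i => u i + s) (z - s - y) ≤ K * (2 * δ + τ + tv β z) := fun s hs => by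
    obtain ⟨k1, k2⟩ := (mem_filter.1 hs).2
    have c1 := (abs_le.1 (abs_shift β (F := fun y => I (fun i => u i + s) (-y)) (fun _ => I1 _ _)
      (z - s))).2
    have c2 := tv_sub β z s
    simp only [neg_sub] at c1
    simp only [hm] at k1
    calc _ ≤ ∑ y, K * (β y * I (fun i => u i + s) (z - s - y)) := sum_le_sum fun y _ => by
          rw [← mul_assoc]; exact mul_le_mul_of_nonneg_right (bβ y) (I0 _ _)
      _ ≤ _ := by
          rw [← mul_sum]
          exact mul_le_mul_of_nonneg_left (by linarith) (by linarith)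
  have pt : ∀ y, |F (z - s - y) - F (z - t - y)| ≤
      2 * ε + (I (fun i => u i + s) (z - s - y) + I (fun i => u i + t) (z - t - y)) := by
    intro y
    have := F0 (z - s - y); have := F1 (z - s - y); have := F0 (z - t - y); have := F1 (z - t - y)
    have e : ∀ w : G, ∑ i, f (z - w - y + (u i + w)) = ∑ i, f (z - y + u i) := fun w =>
      sum_congr rfl fun i _ => by congr 1; abel
    simp only [hI, sum_sub_distrib, sum_const, card_univ, Fintype.card_fin, nsmul_eq_mul, e]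
    split_ifs with c c' c'
    · rw [abs_le]; constructor <;> linarith
    · rw [abs_le]; constructor <;> linarith
    · rw [abs_le]; constructor <;> linarith
    · rw [not_lt, abs_le] at c c'
      rw [add_zero, add_zero, abs_le]
      constructor <;> refine le_of_mul_le_mul_right ?_ l0 <;> linarith [c.1, c.2, c'.1, c'.2]
  have e : T a b f (z - s) - T a b f (z - t) = ∑ y, b y * (F (z - s - y) - F (z - t - y)) := by
    simp only [T, hF, mul_sub, sum_sub_distrib]
  rw [e]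
  calc _ ≤ ∑ y, b y * (2 * ε + (I (fun i => u i + s) (z - s - y) +
        I (fun i => u i + t) (z - t - y))) :=
        (abs_sum_le_sum_abs _ _).trans (sum_le_sum fun y _ => by
          rw [abs_mul, abs_of_nonneg (hb.1 y)]
          exact mul_le_mul_of_nonneg_left (pt y) (hb.1 y))
    _ ≤ _ := by
        simp only [mul_add (b _), sum_add_distrib, hb.const]
        have := bd s hs
        have := bd t ht
        have : 8 * Real.exp (-(ε ^ 2 / 2 * l)) = 4 * δ := by rw [hδ]; ring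
        rw [this]
        linarith

end Crest.Agent.N49.Lo
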