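import Crest.Agent.N49.Lo.Chang
import Crest.Agent.N49.Lo.Cs
import Crest.Agent.N49.Lo.Boot

/-!
# Row 49 (helper72): local almost periodicity on a Bohr set whose rank does not see the ambient rank
-/

set_option autoImplicit false
open Finset
open scoped BigOperators

namespace Crest.Agent.N49.Lo

variable {G : Type*} [AddCommGroup G] [Fintype G]

theorem ip_le {a b : ℕ} (h : a ≤ b) : (1 : ℝ) / 2 ^ b ≤ 1 / 2 ^ a :=
  one_div_le_one_div_of_le (by positivity) (pow_le_pow_right₀ one_le_two h)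

theorem mul_ip_le {a b c : ℕ} {x : ℝ} (hx : x ≤ 1 / 2 ^ b) (h : a + c ≤ b) :
    2 ^ a * x ≤ 1 / 2 ^ c :=
  (mul_le_mul_of_nonneg_left (hx.trans (ip_le h)) (by positivity)).trans_eq (by
    rw [pow_add]; field_simp)

theorem nat_le_pow (n : ℕ) : (n : ℝ) ≤ 2 ^ n := by exact_mod_cast Nat.lt_two_pow_self.le

/-- raw form -/
theorem ap_raw {a b α β σ f : G → ℝ} (ha : Pr a) (hb : Pr b) (hα : Pr α) (hβ : Pr β) (hσ : Pr σ)
    {m : ℕ} (aα : ∀ x, a x ≤ 2 ^ m * α x) (bβ : ∀ x, b x ≤ 2 ^ m * β x) (f0 : ∀ x, 0 ≤ f x)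
    (f1 : ∀ x, f x ≤ 1) {l k : ℕ} (hl : 0 < l) {ε τ r ρ R E : ℝ} (hε : 0 ≤ ε) (hτ : 0 < τ)
    (r0 : 0 < r) (h1 : 8 * (2 ^ m) ^ l * (l * ∑ t, σ t * tv α t) ≤ 1)
    (h2 : 8 * (2 ^ m) ^ l * ∑ t, σ t * tv β t ≤ τ) (hk : 2 / 4 ^ k ≤ ρ)
    (hE : (r * 2 ^ m + (R + τ + 2 ^ m * ∑ x, α x * tv β x) / r) / 2 ≤ E) :
    ∃ Λ : Finset (AddChar G ℂ), #Λ ≤ 8 * (m * l + 2) + 8 ∧ ∀ u z,
      ∑ ψ ∈ Λ, ‖ψ u - 1‖ + 2 ^ (8 * (m * l + 2) + 9) * tv σ u ≤ ρ →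
      tv β z + tv β u + 2 * k * τ ≤ R → |T a b f (z + u) - T a b f z| ≤ 2 * k * (2 * ε + 2 ^ m *
        (8 * Real.exp (-(ε ^ 2 / 2 * l)) + 2 * τ + 2 * R) + 2 * E) + 2 ^ m * ρ + 2 * E := by
  classical
  obtain ⟨X, x1, x2, x3⟩ := cs ha hb hα hβ hσ aα bβ f0 f1 hl hε hτ h1 h2
  obtain ⟨s, hs⟩ : ∃ s, s = ∑ t ∈ X, σ t := ⟨_, rfl⟩
  rw [← hs] at x1
  have s0 : 0 < s := pos_of_mul_pos_right (one_pos.trans_le x1) (by positivity)
  obtain ⟨ν, hν⟩ : ∃ ν : G → ℝ, ∀ t, ν t = if t ∈ X then σ t / s else 0 := ⟨_, fun _ => rfl⟩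
  have pν : Pr ν := ⟨fun t => by
    rw [hν]; split_ifs; exacts [div_nonneg (hσ.1 t) s0.le, le_rfl], by
    simp only [hν, sum_ite_mem, univ_inter, ← sum_div, ← hs, div_self s0.ne']⟩
  have mem : ∀ t, ν t ≠ 0 → t ∈ X := fun t h => by
    by_contra c
    exact h (by rw [hν, if_neg c])
  obtain ⟨Λ, l1, l2⟩ := chang hσ pν (L := m * l + 2) fun t => by
    rw [hν]
    split_ifs
    · rw [div_le_iff₀ s0, mul_right_comm]
      refine le_mul_of_one_le_left (hσ.1 t) (x1.trans_eq ?_)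
      rw [pow_add, pow_mul]; ring
    · exact mul_nonneg (by positivity) (hσ.1 t)
  refine ⟨Λ, l1, fun u z c1 c2 => ?_⟩
  have fa : ∀ x, |f x| ≤ 1 := fun x => abs_le.2 ⟨by linarith [f0 x], f1 x⟩
  have loc : ∀ w, tv β w ≤ R + τ → |T a (fun y => b y / √(β y)) (fun p => √(β (-p)) * f p) w -
      T a b f w| ≤ E := fun w hw => by
    refine (T_loc ha hb hβ r0 bβ fa w).trans (le_trans ?_ hE)
    have : ∑ x, a x * tv β x ≤ 2 ^ m * ∑ x, α x * tv β x := by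
      rw [mul_sum]
      exact sum_le_sum fun x _ => by
        rw [← mul_assoc]; exact mul_le_mul_of_nonneg_right (aα x) (tv_nonneg _ _)
    gcongr
  have key := boot (a := a) (β := β) ha pν (sum_sq_div hb hβ bβ) (v := fun p => √(β (-p)) * f p)
    (η := 2 * ε + 2 ^ m * (8 * Real.exp (-(ε ^ 2 / 2 * l)) + 2 * τ + 2 * R) + 2 * E) (R := R)
    (le_trans (sum_le_sum (g := fun p => β (-p)) fun p _ => by
      rw [mul_pow, Real.sq_sqrt (hβ.1 _)]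
      exact mul_le_of_le_one_right (hβ.1 _) (pow_le_one₀ (f0 p) (f1 p))) (by
      exact ((Equiv.sum_comp (Equiv.neg G) β).trans hβ.2).trans_le (one_le_pow₀ one_le_two))) hτ.le
    (fun s h => x2 s (mem s h)) (fun s t h h' w hw => by
      have p1 := x3 s (mem s h) t (mem t h') w
      have p2 := loc (w - s) (by linarith [tv_sub β w s, x2 s (mem s h)])
      have p3 := loc (w - t) (by linarith [tv_sub β w t, x2 t (mem t h')])
      have p4 := mul_le_mul_of_nonneg_left hw (by positivity : (0 : ℝ) ≤ 2 ^ m)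
      rw [abs_le] at p1 p2 p3 ⊢
      constructor <;> linarith [p1.1, p1.2, p2.1, p2.2, p3.1, p3.2]) hk
    (fun γ h => (l2 γ h u).trans c1) c2
  have k0 : 0 ≤ (k : ℝ) * τ := by positivity
  have p2 := loc (z + u) (by linarith [tv_add β z u])
  have p3 := loc z (by linarith [tv_nonneg β u])
  rw [abs_le] at key p2 p3 ⊢
  constructor <;> linarith [key.1, key.2, p2.1, p2.2, p3.1, p3.2]

/-- the exponent of the local almost periodicity theorem -/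
def apP (m j : ℕ) : ℕ := 2 ^ 14 * (m + j + 4) ^ 4 * 4 ^ j

theorem exp_le (q : ℕ) : Real.exp (-(3 * q)) ≤ 1 / (q * 2 ^ (2 * q)) ∨ q = 0 := by
  rcases Nat.eq_zero_or_pos q with h | h
  · exact Or.inr h
  refine Or.inl ?_
  have e2 : (2 : ℝ) ≤ Real.exp 1 := by linarith [Real.add_one_le_exp 1]
  have a : (2 : ℝ) ^ (2 * q) ≤ Real.exp (2 * q : ℕ) := by
    rw [← mul_one ((2 * q : ℕ) : ℝ), Real.exp_nat_mul]; exact pow_le_pow_left₀ zero_le_two e2 _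
  rw [Real.exp_neg, one_div]
  refine inv_anti₀ (by positivity) ?_
  rw [show (3 : ℝ) * q = q + (2 * q : ℕ) by push_cast; ring, Real.exp_add]
  exact mul_le_mul (by linarith [Real.add_one_le_exp (q : ℝ)]) a (by positivity) (by positivity)

/-- **local almost periodicity**: three scales `σ ≪ α ≪ β` -/
theorem ap {a b α β σ f : G → ℝ} (ha : Pr a) (hb : Pr b) (hα : Pr α) (hβ : Pr β) (hσ : Pr σ)
    {m : ℕ} (aα : ∀ x, a x ≤ 2 ^ m * α x) (bβ : ∀ x, b x ≤ 2 ^ m * β x) (f0 : ∀ x, 0 ≤ f x)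
    (f1 : ∀ x, f x ≤ 1) (j : ℕ) (h1 : ∑ t, σ t * tv α t ≤ 1 / 2 ^ apP m j)
    (h2 : ∑ t, σ t * tv β t ≤ 1 / 2 ^ apP m j) (h3 : ∑ t, α t * tv β t ≤ 1 / 2 ^ apP m j) :
    ∃ Λ : Finset (AddChar G ℂ), #Λ ≤ apP m j ∧ ∀ u z, ∑ ψ ∈ Λ, ‖ψ u - 1‖ ≤ 1 / 2 ^ (m + j + 3) →
      tv σ u ≤ 1 / 2 ^ apP m j → tv β u ≤ 1 / 2 ^ apP m j → tv β z ≤ 1 / 2 ^ apP m j →
        |T a b f (z + u) - T a b f z| ≤ 1 / 2 ^ j := by
  obtain ⟨q, hq⟩ : ∃ q, q = m + j + 4 := ⟨_, rfl⟩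
  have q0 : (0 : ℝ) < q := by exact_mod_cast (by omega : 0 < q)
  obtain ⟨l, hl⟩ : ∃ l, l = 1536 * q ^ 3 * 4 ^ j := ⟨_, rfl⟩
  have l0 : 0 < l := by rw [hl, hq]; positivity
  obtain ⟨Q, hQ⟩ : ∃ Q, Q = q ^ 4 * 4 ^ j := ⟨_, rfl⟩
  have hP : apP m j = 16384 * Q := by rw [apP, ← hq, hQ]; ring
  have Q1 : q ≤ Q := by
    rw [hQ]
    exact (Nat.le_self_pow (by norm_num) q).trans (Nat.le_mul_of_pos_right _ (by positivity))
  have Q2 : m * l + l ≤ 1536 * Q := by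
    calc _ = (m + 1) * l := by ring
      _ ≤ q * l := Nat.mul_le_mul_right _ (by omega)
      _ = _ := by rw [hl, hQ]; ring
  rw [hP] at h1 h2 h3 ⊢
  have t3 : 2 ^ m * ∑ t, α t * tv β t ≤ 1 / 2 ^ (6 * q) := mul_ip_le h3 (by omega)
  have w1 : (1 : ℝ) / 2 ^ (8 * q) ≤ 1 / 2 ^ (6 * q) := ip_le (by omega)
  obtain ⟨Λ, l1, l2⟩ := ap_raw ha hb hα hβ hσ aα bβ f0 f1 l0 (k := q) (ε := 1 / (16 * q * 2 ^ j))
    (τ := 1 / 2 ^ (8 * q)) (r := 1 / 2 ^ (3 * q)) (ρ := 1 / 2 ^ (m + j + 2)) (R := 1 / 2 ^ (6 * q))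
    (E := 1 / 2 ^ (2 * q + 2)) (by positivity) (by positivity) (by positivity) (by
      have := mul_ip_le (a := m * l + 3 + l) (c := 0) h1 (by omega)
      have p : 0 ≤ ∑ t, σ t * tv α t := hσ.ge fun _ => tv_nonneg _ _
      rw [pow_add, pow_add, pow_mul] at this
      calc _ ≤ 8 * (2 ^ m) ^ l * (2 ^ l * ∑ t, σ t * tv α t) := by gcongr; exact nat_le_pow l
        _ ≤ _ := by linarith) (by
      have := mul_ip_le (a := m * l + 3) (c := 8 * q) h2 (by omega)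
      rw [pow_add, pow_mul] at this
      linarith) (by
      rw [div_le_div_iff₀ (by positivity) (by positivity), one_mul, ← pow_succ',
        show (4 : ℝ) = 2 ^ 2 by norm_num, ← pow_mul]
      exact pow_le_pow_right₀ one_le_two (by omega)) (by
      have p1 := mul_ip_le (a := m) (c := 2 * q + 2) (le_refl ((1 : ℝ) / 2 ^ (3 * q))) (by omega)
      have p2 := mul_ip_le (a := 3 * q + 2) (c := 2 * q + 2) (le_refl ((1 : ℝ) / 2 ^ (6 * q)))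
        (by omega)
      rw [div_div_eq_mul_div, div_one, mul_comm _ ((2 : ℝ) ^ (3 * q))]
      have p3 := mul_le_mul_of_nonneg_left (add_le_add (add_le_add (le_refl ((1 : ℝ) / 2 ^ (6 * q)))
        w1) t3) (by positivity : (0 : ℝ) ≤ 2 ^ (3 * q))
      have p4 : (0 : ℝ) ≤ 2 ^ (3 * q) * (1 / 2 ^ (6 * q)) := by positivity
      rw [pow_add (2 : ℝ) (3 * q) 2] at p2
      linarith)
  refine ⟨Λ, by omega, fun u z c1 c2 c3 c4 => (l2 u z ?_ ?_).trans ?_⟩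
  · have := mul_ip_le (a := 8 * (m * l + 2) + 9) (c := m + j + 3) c2 (by omega)
    have e : (1 : ℝ) / 2 ^ (m + j + 2) = 1 / 2 ^ (m + j + 3) + 1 / 2 ^ (m + j + 3) := by
      field_simp; ring
    linarith
  · have p1 := c3.trans (ip_le (a := 6 * q + 2) (by omega))
    have p2 := c4.trans (ip_le (a := 6 * q + 2) (by omega))
    have p3 := mul_ip_le (a := q + 1) (c := 6 * q + 1) (le_refl ((1 : ℝ) / 2 ^ (8 * q))) (by omega)
    have p4 := mul_le_mul_of_nonneg_right (nat_le_pow q) (by positivity : (0 : ℝ) ≤ 1 / 2 ^ (8 * q))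
    have e : (1 : ℝ) / 2 ^ (6 * q) = 1 / 2 ^ (6 * q + 2) + 1 / 2 ^ (6 * q + 2) + 1 / 2 ^ (6 * q + 1) := by
      field_simp; ring
    rw [pow_succ] at p3
    linarith
  have e : (1 / (16 * (q : ℝ) * 2 ^ j)) ^ 2 / 2 * l = 3 * q := by
    rw [hl, show (4 : ℕ) = 2 * 2 by norm_num, mul_pow]; push_cast; field_simp; norm_num
  rw [e]
  have x1 := (exp_le q).resolve_right (by omega)
  have y1 : 2 * q * (2 ^ m * (8 * Real.exp (-(3 * q)))) ≤ 1 / 2 ^ (j + 3) := by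
    refine le_trans ?_ (mul_ip_le (a := m + 4) (c := j + 3) (le_refl ((1 : ℝ) / 2 ^ (2 * q)))
      (by omega))
    calc _ ≤ 2 * (q : ℝ) * (2 ^ m * (8 * (1 / (q * 2 ^ (2 * q))))) := by gcongr
      _ = _ := by field_simp; ring
  have y2 : 2 * q * (2 ^ m * (2 * (1 / 2 ^ (8 * q)) + 2 * (1 / 2 ^ (6 * q)))) ≤ (1 : ℝ) / 2 ^ (j + 4) := by
    refine le_trans ?_ (mul_ip_le (a := q + m + 3) (c := j + 4) (le_refl ((1 : ℝ) / 2 ^ (6 * q)))
      (by omega))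
    calc _ ≤ 2 * (2 : ℝ) ^ q * (2 ^ m * (2 * (1 / 2 ^ (6 * q)) + 2 * (1 / 2 ^ (6 * q)))) := by
          gcongr; exact nat_le_pow q
      _ = _ := by ring
  have y3 : 2 * q * (2 * (1 / 2 ^ (2 * q + 2))) ≤ (1 : ℝ) / 2 ^ (j + 4) := by
    refine le_trans ?_ (mul_ip_le (a := q + 2) (c := j + 4) (le_refl ((1 : ℝ) / 2 ^ (2 * q + 2)))
      (by omega))
    calc _ ≤ 2 * (2 : ℝ) ^ q * (2 * (1 / 2 ^ (2 * q + 2))) := by gcongr; exact nat_le_pow q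
      _ = _ := by ring
  have y4 := mul_ip_le (a := 1) (c := j + 3) (le_refl ((1 : ℝ) / 2 ^ (2 * q + 2))) (by omega)
  have y5 : (2 : ℝ) ^ m * (1 / 2 ^ (m + j + 2)) = 1 / 2 ^ (j + 2) := by field_simp; ring
  have y6 : 2 * q * (2 * (1 / (16 * (q : ℝ) * 2 ^ j))) = 1 / 2 ^ (j + 2) := by field_simp; ring
  have y7 : (1 : ℝ) / 2 ^ j = 1 / 2 ^ (j + 2) + 1 / 2 ^ (j + 3) + 1 / 2 ^ (j + 4) + 1 / 2 ^ (j + 4) +
    1 / 2 ^ (j + 2) + 1 / 2 ^ (j + 3) + 1 / 2 ^ (j + 3) := by field_simp; ring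
  have y8 : (0 : ℝ) ≤ 1 / 2 ^ (j + 3) := by positivity
  rw [pow_one] at y4
  linarith

end Crest.Agent.N49.Lo
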