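import Crest.Agent.N49.Lo.Amh2

/-!
# Row 49 (helper12): the weighted rank-free approximate MH₁
-/

set_option autoImplicit false
open Finset Matrix MeasureTheory
open scoped BigOperators

namespace Crest.Agent.N49.Lo

open La Po To

/-- **approximate MH₁, rank free, at many centres, weighted** -/
def AMHw : Prop := ∃ (C : ℕ) (D P : ℕ → ℕ), Iv.Poly D ∧ Iv.Poly P ∧ ∀ (d : Type) [Fintype d]
  [DecidableEq d] (M : Matrix d d ℝ) (hM : M.PosDef) (μ β ν : Measure (d → ℤ))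
  [IsProbabilityMeasure μ] [IsProbabilityMeasure β] [IsProbabilityMeasure ν] (V : Type)
  [NormedAddCommGroup V] [NormedSpace ℝ V] [CompleteSpace V] (Z : AddSubgroup V) (X : Set (d → ℤ))
  (ψ f h : (d → ℤ) → V) (ε ε' σ : ℝ) (m : ℕ) (w : (d → ℤ) → (d → ℤ) → ℝ),
  (∀ c x, 0 ≤ w c x ∧ w c x ≤ 1) → (∀ t ∈ X, 1 / 2 ^ m ≤ ∫ x, w (t - x) x ∂ν) →
  0 < ε → 0 < ε' → QI (nq hM) μ → QI (nq hM) β →
  Integrable (fun x => nq hM (ci x)) ν →
  ∫ x, nq hM (ci x) ∂ν ≤ 1 / (2 ^ P m * (Fintype.card d + 2) ^ 4) →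
  Af.Tt.Ts {v | Nr Z (C * ε) v} {v | Nr Z ε' v} → (∀ v ∈ Z, ‖v‖ < σ → v = 0) →
  24 * (Fintype.card d + D m + 1) * (ε' + C * ε) < σ →
  1 / 2 ^ m ≤ (μ.prod β).real {p | p.1 ∈ X ∧ Nr Z ε (ψ (p.1 + p.2) - f p.1 - h p.2)} →
  ∃ T : Set (d → ℤ), 1 / 2 ^ P m ≤ μ.real T ∧ ∀ c ∈ T, ∃ (g : Fin (D m) → d → ℝ)
    (θ : Fin (D m) → ℝ) (L : (d ⊕ Fin (D m) → ℤ) →+ V) (c₀ : V) (A : Set (d → ℤ)),
    1 / (Fintype.card d + 2) ^ P m ≤ ∫ x in A, w c x ∂ν ∧ ∀ x ∈ A, c + x ∈ X ∧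
      (∀ l, |g l ⬝ᵥ ci x - θ l - round (g l ⬝ᵥ ci x - θ l)| ≤ 1 / 2 ^ m) ∧
      Nr Z (9 * (Fintype.card d + D m + 1) * (ε' + C * ε))
        (f (c + x) - c₀ - L (Sum.elim x fun l => round (g l ⬝ᵥ ci x - θ l)))

section kit
variable {α : Type*} [MeasurableSpace α] [DiscreteMeasurableSpace α] {ν : Measure α}
  [IsProbabilityMeasure ν] {w : α → ℝ}

theorem int_u (h : ∀ x, 0 ≤ w x ∧ w x ≤ 1) : Integrable w ν :=
  .of_bound Measurable.of_discrete.aestronglyMeasurable 1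
    (.of_forall fun x => (Real.norm_of_nonneg (h x).1).trans_le (h x).2)

theorem int_u' (h : ∀ x, 0 ≤ w x ∧ w x ≤ 1) : 0 ≤ ∫ x, w x ∂ν ∧ ∫ x, w x ∂ν ≤ 1 :=
  ⟨integral_nonneg fun x => (h x).1,
    (integral_mono (int_u h) (integrable_const 1) fun x => (h x).2).trans_eq (by simp)⟩

/-- the weighted measure -/
noncomputable def wd (ν : Measure α) (w : α → ℝ) : Measure α :=
  ν.withDensity fun x => ENNReal.ofReal (w x)

omit [IsProbabilityMeasure ν] in
theorem wd_real (h : ∀ x, 0 ≤ w x ∧ w x ≤ 1) (S : Set α) : (wd ν w).real S = ∫ x in S, w x ∂ν := by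
  rw [measureReal_def, wd, withDensity_apply _ .of_discrete, integral_eq_lintegral_of_nonneg_ae
    (.of_forall fun x => (h x).1) Measurable.of_discrete.aestronglyMeasurable]

theorem wd_fin (h : ∀ x, 0 ≤ w x ∧ w x ≤ 1) : IsFiniteMeasure (wd ν w) :=
  isFiniteMeasure_withDensity_ofReal (int_u h).2

theorem wd_le (h : ∀ x, 0 ≤ w x ∧ w x ≤ 1) (S : Set α) : (wd ν w).real S ≤ ν.real S := by
  rw [wd_real h]
  exact (integral_mono (int_u h).integrableOn (integrable_const 1) fun x => (h x).2).trans_eq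
    (by simp)

theorem layer {μ : Measure α} [IsProbabilityMeasure μ] {v : α → ℝ} {a : ℝ}
    (h : ∀ x, 0 ≤ w x ∧ w x ≤ 1) (k : ∀ x, 0 ≤ v x ∧ v x ≤ 1)
    (e : ∀ t, ν.real {x | t ≤ w x} ≤ μ.real {x | t ≤ v x} + a) : ∫ x, w x ∂ν ≤ ∫ x, v x ∂μ + a := by
  have i : ∀ (μ : Measure α) [IsProbabilityMeasure μ] (v : α → ℝ),
      IntegrableOn (fun t => μ.real {x | t ≤ v x}) (Set.Ioc (0 : ℝ) 1) := fun μ _ v =>
    Integrable.of_bound (Antitone.measurable (f := fun t => μ.real {x | t ≤ v x}) fun s t p =>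
      measureReal_mono (fun x q => p.trans q) (measure_ne_top _ _)).aestronglyMeasurable 1
      (.of_forall fun _ => (Real.norm_of_nonneg measureReal_nonneg).trans_le measureReal_le_one)
  rw [(int_u h).integral_eq_integral_Ioc_meas_le (.of_forall fun x => (h x).1)
    (.of_forall fun x => (h x).2), (int_u k).integral_eq_integral_Ioc_meas_le
    (.of_forall fun x => (k x).1) (.of_forall fun x => (k x).2)]
  refine (integral_mono (i ν w) ((i μ v).add (integrable_const a)) e).trans_eq ?_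
  rw [integral_add' (i μ v) (integrable_const a)]; simp

end kit

theorem qi_int {d : Type} [Fintype d] {N : Seminorm ℝ (d → ℝ)} {μ : Measure (d → ℤ)}
    [IsProbabilityMeasure μ] (h : QI N μ) {F : (d → ℤ) → ℝ} (hF : ∀ x, 0 ≤ F x ∧ F x ≤ 1)
    (z : d → ℤ) : |∫ c, F (c + z) ∂μ - ∫ c, F c ∂μ| ≤ N (ci z) := by
  have a := layer (ν := μ) (μ := μ) (fun c => hF (c + z)) hF (a := N (ci z)) fun t =>
    (h _ z).trans (add_le_add_left (measureReal_mono (by rintro _ ⟨c, k, rfl⟩; exact k)) _)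
  have b := layer (ν := μ) (μ := μ) hF (fun c => hF (c + z)) (a := N (ci z)) fun t => by
    have := h {x | t ≤ F x} (-z)
    rwa [map_neg, map_neg_eq_map, show (· + -z) '' {x | t ≤ F x} = {c | t ≤ F (c + z)} by
      ext; simp] at this
  rw [abs_le]; constructor <;> linarith

/-- functional form of `mix` -/
theorem mixw {d : Type} [Fintype d] {N : Seminorm ℝ (d → ℝ)} {μ ν : Measure (d → ℤ)}
    [IsProbabilityMeasure μ] [IsProbabilityMeasure ν] (h : QI N μ)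
    (hi : Integrable (fun x => N (ci x)) ν) {F : (d → ℤ) → (d → ℤ) → ℝ}
    (hF : ∀ a x, 0 ≤ F a x ∧ F a x ≤ 1) :
    |∫ c, ∫ x, F (c + x) x ∂ν ∂μ - ∫ c, ∫ x, F c x ∂ν ∂μ| ≤ ∫ x, N (ci x) ∂ν := by
  rw [integral_integral_swap (f := fun c x => F (c + x) x) (int_u fun _ => hF _ _),
    integral_integral_swap (int_u fun _ => hF _ _), ← integral_sub
      (int_u fun _ => int_u' fun _ => hF _ _) (int_u fun _ => int_u' fun _ => hF _ _)]
  exact norm_integral_le_of_norm_le (f := fun x => ∫ c, F (c + x) x ∂μ - ∫ c, F c x ∂μ) hi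
    (.of_forall fun x => qi_int h (fun c => hF c x) x)

/-- one centre: from an approximate Freiman homomorphism to a bracket linear form -/
theorem amh_one' {d V : Type} [Fintype d] [DecidableEq d] {M : Matrix d d ℝ} (hM : M.PosDef)
    [NormedAddCommGroup V] [NormedSpace ℝ V] [CompleteSpace V] {Z : AddSubgroup V} {ε σ r b : ℝ}
    {Q m : ℕ} {A : Set (d → ℤ)} {f : (d → ℤ) → V} (hε : 0 < ε) (hr : 0 < r) (hb : 0 < b)
    (hZ : ∀ v ∈ Z, ‖v‖ < σ → v = 0) (hσ : 24 * (Fintype.card d + Q + 1) * ε < σ)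
    (hf : AF 6 Z ε A f) {Λ : Finset (d → ℝ)} (hΛ : #Λ ≤ Q) (hB : ∀ b,
      (∀ ξ ∈ Λ, |ξ ⬝ᵥ ci b - round (ξ ⬝ᵥ ci b)| ≤ 1 / 2 ^ Q) → nq hM (ci b) ≤ r → ∃ p, Rp A b p)
    {ν ν' : Measure (d → ℤ)} [IsProbabilityMeasure ν] [IsFiniteMeasure ν']
    (hle : ∀ S, ν'.real S ≤ ν.real S) (hi : Integrable (fun x => nq hM (ci x)) ν)
    (hν : ∫ x, nq hM (ci x) ∂ν ≤ b * (r / (4 * (Fintype.card d + Q + 1)))) (c : d → ℤ)
    (hc : 2 * b ≤ ν'.real {x | c + x ∈ A}) : ∃ (g : Fin Q → d → ℝ) (θ : Fin Q → ℝ)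
      (L : (d ⊕ Fin Q → ℤ) →+ V) (c₀ : V) (A' : Set (d → ℤ)),
      b ≤ (2 * (Fintype.card d + Q + 1) * 2 ^ (Q + m)) ^ Q * ν'.real A' ∧ ∀ x ∈ A', c + x ∈ A ∧
        (∀ l, |g l ⬝ᵥ ci x - θ l - round (g l ⬝ᵥ ci x - θ l)| ≤ 1 / 2 ^ m) ∧
        Nr Z (9 * (Fintype.card d + Q + 1) * ε)
          (f (c + x) - c₀ - L (Sum.elim x fun l => round (g l ⬝ᵥ ci x - θ l))) := by
  obtain ⟨g, hg⟩ := exists_pad Λ hΛ
  obtain ⟨T, hT, eT⟩ := exists_nq hM
  obtain ⟨L, hL⟩ := amh_core T hT g hr (η := 1 / 2 ^ Q) (by positivity) (fun b p q => hB b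
    (fun ξ k => let ⟨l, e⟩ := hg ξ k; e ▸ q l) (eT _ ▸ p)) hZ hε (by simpa using hσ) hf
  rw [Fintype.card_fin] at hL
  set n : ℝ := Fintype.card d + Q + 1 with hn
  have n1 : 1 ≤ n := le_add_of_nonneg_left (by positivity)
  have r0 : 0 < r / (4 * n) := by positivity
  have m1 := (mul_meas_ge_le_integral_of_nonneg (.of_forall fun x => apply_nonneg _ _) hi
    (r / (4 * n))).trans hν
  rw [mul_comm b] at m1
  replace m1 := (hle _).trans (le_of_mul_le_mul_left m1 r0)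
  have m2 : ν'.real {x | c + x ∈ A} ≤ ν'.real ({x | c + x ∈ A} ∩ {x | nq hM (ci x) < r / (4 * n)}) +
      ν'.real {x | r / (4 * n) ≤ nq hM (ci x)} :=
    le_trans (measureReal_mono (fun x hx => (lt_or_ge (nq hM (ci x)) _).imp_left (And.intro hx))
      (measure_ne_top ν' (_ ∪ _))) (measureReal_union_le _ _)
  obtain ⟨A', a, k, e⟩ := exists_cellm ν' ({x | c + x ∈ A} ∩ {x | nq hM (ci x) < r / (4 * n)})
    (fun l x => g l ⬝ᵥ ci x) (M := 2 * (Fintype.card d + Q + 1) * 2 ^ (Q + m)) (by positivity)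
  rw [Fintype.card_fin] at k
  push_cast at k e
  rw [← hn] at k e
  obtain ⟨y, hy⟩ : A'.Nonempty := Set.nonempty_iff_ne_empty.2 fun z => by
    rw [z, measureReal_empty, mul_zero] at k; linarith
  refine ⟨g, fun l => g l ⬝ᵥ ci y, L, f (c + y) - L (Sum.elim y 0), A', by linarith, fun x hx =>
    ⟨(a hx).1, fun l => (e x hx y hy l).trans (one_div_le_one_div_of_le (by positivity) ?_), ?_⟩⟩
  · rw [pow_add, ← mul_assoc]
    exact le_mul_of_one_le_left (by positivity) (one_le_mul_of_one_le_of_one_le (by linarith)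
      (one_le_pow₀ one_le_two))
  refine (hL (x - y) ?_ (fun l => ?_) ![c + x, c + y, c + y, c + y]
    ⟨by simpa [Fin.forall_fin_succ] using ⟨(a hx).1, (a hy).1⟩, by
      simp only [Matrix.cons_val]; abel⟩).of_eq ?_
  · rw [eT, map_sub]
    have p : nq hM (ci x) < r / (4 * n) := (a hx).2
    have q : nq hM (ci y) < r / (4 * n) := (a hy).2
    refine (map_sub_le_add _ _ _).trans ((add_le_add p.le q.le).trans_eq ?_)
    field_simp; norm_num
  · rw [map_sub, dotProduct_sub, div_div]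
    refine (e x hx y hy l).trans (one_div_le_one_div_of_le (by positivity) ?_)
    rw [mul_comm]
    exact mul_le_mul_of_nonneg_left (pow_le_pow_right₀ one_le_two (by omega)) (by positivity)
  · have : lf g (x - y) = (Sum.elim x fun l => round (g l ⬝ᵥ ci x - g l ⬝ᵥ ci y)) - Sum.elim y 0 := by
      ext (i | l) <;> simp [lf]
    rw [this, map_sub]
    simp only [vl4, Matrix.cons_val, add_sub_cancel_right]; abel

/-- **weighted aMH₁** -/
theorem amhw_of (hA : LAF) (hS : LS) : AMHw := by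
  obtain ⟨C, hA⟩ := hA
  obtain ⟨P, hP, hS⟩ := hS
  have pk : Iv.Poly fun m => C * (m + 1) := (Iv.Poly.const C).mul (Iv.Poly.id.add (.const 1))
  have pQ := hP.comp pk
  refine ⟨C, fun m => P (C * (m + 1)), fun m => 3 * (C * (m + 1) + m) + 4 * P (C * (m + 1)) + 10 +
    P (C * (m + 1)) * (2 * P (C * (m + 1)) + m + 2), pQ, ((((Iv.Poly.const 3).mul (pk.add .id)).add
    ((Iv.Poly.const 4).mul pQ)).add (.const 10)).add (pQ.mul ((((Iv.Poly.const 2).mul pQ).add
    .id).add (.const 2))), fun d _ _ M hM μ β ν _ _ _ V _ _ _ Z X ψ f h ε ε' σ m w w0 w1 e0 e1 hμ hβ hi hν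
    hT hZ hσ hm => ?_⟩
  beta_reduce at *
  set k := C * (m + 1)
  set Q := P k
  set j := k + m with hj
  set n : ℝ := (Fintype.card d : ℝ) with hn
  have n0 : 0 ≤ n := Nat.cast_nonneg _
  have Q1 : (Q : ℝ) + 1 ≤ 2 ^ Q := by exact_mod_cast Nat.lt_two_pow_self
  have Q2 : n + Q + 1 ≤ (n + 2) * 2 ^ Q := by nlinarith [one_le_pow₀ (n := Q) (one_le_two (α := ℝ))]
  set s : ℝ := (n + 2) * 2 ^ (2 * j + 3) with hs
  have s0 : 0 < s := by positivity
  have := gm_prob (hM.smul (pow_pos s0 2)) 0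
  set ν₁ := gm (s ^ 2 • M) 0
  have i1 : ∫ x, nq hM (ci x) ∂ν₁ ≤ 1 / 2 ^ (2 * j + 3) :=
    (integral_nq hM s0).trans_eq (by rw [hs]; field_simp; rfl)
  have s4 : 0 < 4 * s := by positivity
  have q1 : QI (nq (hM.smul (pow_pos s4 2))) ν₁ := fun S z => by
    have := gm_qi (hM.smul (pow_pos s0 2)) 0 S z
    rw [nq_smul hM s4, mul_assoc, ← nq_smul hM s0]
    exact this
  set r : ℝ := 1 / 2 ^ (3 * Q) / (n + 1) ^ 2 / (4 * s) with hr
  have i2 : ∫ x, nq hM (ci x) ∂ν ≤ 1 / 2 ^ (j + 3) * (r / (4 * (n + Q + 1))) := by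
    refine hν.trans ?_
    rw [hr, div_div, div_div, div_div, div_mul_div_comm, one_mul]
    refine one_div_le_one_div_of_le (by positivity) ?_
    calc _ ≤ 2 ^ (j + 3) * (2 ^ (3 * Q) * ((n + 2) ^ 2 * (4 * s * (4 * ((n + 2) * 2 ^ Q))))) := by
          gcongr; norm_num
      _ = 2 ^ (3 * j + 4 * Q + 10) * (n + 2) ^ 4 := by rw [hs]; ring
      _ ≤ _ := mul_le_mul_of_nonneg_right (pow_le_pow_right₀ one_le_two (Nat.le_add_right _ _))
          (by positivity)
  have r1 : 4 * s * (r / (4 * (n + Q + 1))) ≤ 1 := by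
    rw [hr, ← mul_div_assoc, mul_div_cancel₀ _ s4.ne', div_div, div_div, div_le_one (by positivity)]
    refine one_le_mul_of_one_le_of_one_le (one_le_pow₀ one_le_two) (one_le_mul_of_one_le_of_one_le
      (one_le_pow₀ (by linarith)) ?_)
    linarith [Nat.cast_nonneg (α := ℝ) Q]
  obtain ⟨T, hT1, hT2⟩ := hA d (nq hM) μ β ν₁ V Z X ψ f h ε ε' m e0 hμ hβ (integrable_nq hM s0)
    (i1.trans (one_div_le_one_div_of_le (by positivity) (pow_le_pow_right₀ one_le_two (by omega))))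
    hT hm
  set G := {c : d → ℤ | ∃ (g : Fin Q → d → ℝ) (θ : Fin Q → ℝ) (L : (d ⊕ Fin Q → ℤ) →+ V) (c₀ : V)
    (A : Set (d → ℤ)), 1 / (n + 2) ^ (3 * j + 4 * Q + 10 + Q * (2 * Q + m + 2)) ≤
      ∫ x in A, w c x ∂ν ∧ ∀ x ∈ A, c + x ∈ X ∧ (∀ l, |g l ⬝ᵥ ci x - θ l - round (g l ⬝ᵥ ci x - θ l)| ≤ 1 / 2 ^ m) ∧
      Nr Z (9 * (n + Q + 1) * (ε' + C * ε))
        (f (c + x) - c₀ - L (Sum.elim x fun l => round (g l ⬝ᵥ ci x - θ l)))}
  have key : ∀ t ∈ T, 1 / 2 ^ (j + 2) ≤ ν₁.real {c | t + c ∈ G} := fun t ht => by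
    obtain ⟨A, a1, a2, a3⟩ := hT2 t ht
    obtain ⟨Λ, l1, l2⟩ := hS d _ _ ν₁ A k q1 a1
    have b1 := (abs_le.1 (mixw q1 (by simpa only [nq_smul hM s4] using hi.const_mul _)
      (F := fun a x => A.indicator (fun a => w (t + a - x) x) a) fun a x =>
        ⟨Set.indicator_nonneg (fun _ _ => (w0 _ _).1) _,
          Set.indicator_apply_le' (fun _ => (w0 _ _).2) fun _ => zero_le_one⟩)).1
    have b0 : 1 / 2 ^ j ≤ ∫ a, ∫ x, A.indicator (fun a => w (t + a - x) x) a ∂ν ∂ν₁ := by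
      refine le_trans ?_ (integral_mono ((integrable_const (1 / 2 ^ m : ℝ)).indicator (s := A)
        .of_discrete) (int_u fun a => int_u' fun x => ⟨Set.indicator_nonneg (fun _ _ => (w0 _ _).1) _,
          Set.indicator_apply_le' (fun _ => (w0 _ _).2) fun _ => zero_le_one⟩) fun a => ?_)
      · rw [integral_indicator_const _ .of_discrete, smul_eq_mul, hj, pow_add, ← one_div_mul_one_div]
        exact mul_le_mul_of_nonneg_right a1 (by positivity)
      · by_cases c : a ∈ A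
        · simpa only [Set.indicator_of_mem c] using w1 _ (a2 a c)
        · simp [c]
    have e2 : ∀ c, ∫ x, A.indicator (fun a => w (t + a - x) x) (c + x) ∂ν =
        (wd ν (w (t + c))).real {x | c + x ∈ A} := fun c => by
      rw [wd_real (w0 _), ← integral_indicator .of_discrete]
      refine integral_congr_ae (.of_forall fun x => ?_)
      by_cases h : c + x ∈ A <;> simp [h, ← add_assoc]
    simp only [nq_smul hM s4, integral_const_mul, e2] at b1
    have b2 := markov_ge ν₁ (F := fun c => (wd ν (w (t + c))).real {x | c + x ∈ A})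
      (int_u fun c => ⟨measureReal_nonneg, (wd_le (w0 _) _).trans measureReal_le_one⟩)
      (fun _ => (wd_le (w0 _) _).trans measureReal_le_one)
      (a := 2 * (1 / 2 ^ (j + 3))) (by positivity)
    have b3 := (mul_le_mul_of_nonneg_left i2 s4.le).trans ((mul_left_comm _ _ _).trans_le
      (mul_le_of_le_one_right (by positivity) r1))
    refine le_trans ?_ (measureReal_mono (s₁ := {c | 2 * (1 / 2 ^ (j + 3)) ≤
      (wd ν (w (t + c))).real {x | c + x ∈ A}}) (fun c hc => ?_) (measure_ne_top _ _))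
    · simp only [pow_add _ j, ← one_div_mul_one_div] at b2 b3 ⊢
      have : (0 : ℝ) < 1 / 2 ^ j := by positivity
      linarith
    have := wd_fin (ν := ν) (w0 (t + c))
    obtain ⟨g, θ, L, c₀, A', c1, c2⟩ := amh_one' hM (m := m) (r := r) (by positivity) (by positivity)
      (by positivity) hZ hσ a3 l1 (fun b p q => l2 b p (by
        rw [nq_smul hM s4, ← le_div_iff₀' s4]; exact q)) (wd_le (w0 _)) hi i2 c hc
    refine ⟨g, θ, L, c₀, A', ?_, fun x hx => by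
      rw [add_assoc]; exact ⟨a2 _ (c2 x hx).1, (c2 x hx).2⟩⟩
    rw [← wd_real (w0 _)]
    rw [div_le_iff₀ (by positivity)] at c1 ⊢
    refine c1.trans ?_
    rw [mul_comm _ (Measure.real _ A'), mul_assoc, add_comm (_ + 10), pow_add (n + 2), mul_comm Q, pow_mul]
    have w : ∀ j : ℕ, (2 : ℝ) ^ j ≤ (n + 2) ^ j := fun j => by gcongr; linarith
    gcongr
    · calc _ ≤ 2 * ((n + 2) * 2 ^ Q) * 2 ^ (Q + m) := by gcongr
        _ = 2 ^ (2 * Q + m + 1) * (n + 2) := by ring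
        _ ≤ _ := by rw [pow_succ (n + 2)]; gcongr; linarith
    · exact (w _).trans (pow_le_pow_right₀ (by linarith) (by omega))
  have b1 := (abs_le.1 (mix hμ (integrable_nq hM s0) G)).2
  have b2 := integral_mono ((integrable_const (1 / 2 ^ (j + 2) : ℝ)).indicator (s := T) .of_discrete)
    (int_real μ ν₁ fun t => {c | t + c ∈ G}) fun t => by
      by_cases c : t ∈ T
      · rw [Set.indicator_of_mem c]; exact key t c
      · rw [Set.indicator_of_notMem c]; exact measureReal_nonneg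
  rw [integral_indicator_const _ .of_discrete, smul_eq_mul] at b2
  refine ⟨G, (one_div_le_one_div_of_le (by positivity) (pow_le_pow_right₀ one_le_two
    (by omega : 2 * j + 3 ≤ _))).trans ?_, fun _ c => c⟩
  have := mul_le_mul_of_nonneg_right ((one_div_le_one_div_of_le (by positivity)
    (pow_le_pow_right₀ one_le_two (by omega : k ≤ j))).trans hT1) (by positivity : (0 : ℝ) ≤ 1 / 2 ^ (j + 2))
  have e : (1 : ℝ) / 2 ^ j * (1 / 2 ^ (j + 2)) = 2 * (1 / 2 ^ (2 * j + 3)) := by field_simp; ring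
  linarith

theorem amhw : AMHw := amhw_of Af.lafM ls

end Crest.Agent.N49.Lo
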