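import Crest.Agent.N49.Lo.Amh
import Crest.Agent.N49.Lo.Push
import Crest.Agent.N49.Af.Tst
import Crest.Agent.N49.Iv.Defs
import Crest.Agent.N49.To.Cell

/-!
# Row 49 (helper12): the rank-free approximate MH₁ (statements and glue)
-/

set_option autoImplicit false
open Finset Matrix MeasureTheory
open scoped BigOperators

namespace Crest.Agent.N49.Lo

open La Po To

/-- local approximate Freiman extraction, at many centres -/
def LAF : Prop := ∃ C : ℕ, ∀ (d : Type) [Fintype d] [DecidableEq d] (N : Seminorm ℝ (d → ℝ))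
  (μ β ν : Measure (d → ℤ)) [IsProbabilityMeasure μ] [IsProbabilityMeasure β]
  [IsProbabilityMeasure ν] (V : Type) [NormedAddCommGroup V] (Z : AddSubgroup V) (X : Set (d → ℤ))
  (ψ f h : (d → ℤ) → V) (ε ε' : ℝ) (m : ℕ), 0 < ε → QI N μ → QI N β →
  Integrable (fun x => N (ci x)) ν → ∫ x, N (ci x) ∂ν ≤ 1 / 2 ^ (C * (m + 1)) →
  Af.Tt.Ts {v | Nr Z (C * ε) v} {v | Nr Z ε' v} →
  1 / 2 ^ m ≤ (μ.prod β).real {p | p.1 ∈ X ∧ Nr Z ε (ψ (p.1 + p.2) - f p.1 - h p.2)} →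
  ∃ T : Set (d → ℤ), 1 / 2 ^ (C * (m + 1)) ≤ μ.real T ∧ ∀ t ∈ T, ∃ A : Set (d → ℤ),
    1 / 2 ^ (C * (m + 1)) ≤ ν.real A ∧ (∀ x ∈ A, t + x ∈ X) ∧ AF 6 Z (ε' + C * ε) A fun x => f (t + x)

/-- local Bogolyubov–Sanders -/
def LS : Prop := ∃ P, Iv.Poly P ∧ ∀ (d : Type) [Fintype d] [DecidableEq d] (M : Matrix d d ℝ)
  (hM : M.PosDef) (μ : Measure (d → ℤ)) [IsProbabilityMeasure μ] (A : Set (d → ℤ)) (m : ℕ),
  QI (nq hM) μ → 1 / 2 ^ m ≤ μ.real A → ∃ Λ : Finset (d → ℝ), #Λ ≤ P m ∧ ∀ b,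
    (∀ ξ ∈ Λ, |ξ ⬝ᵥ ci b - round (ξ ⬝ᵥ ci b)| ≤ 1 / 2 ^ P m) →
    nq hM (ci b) ≤ 1 / 2 ^ (3 * P m) / (Fintype.card d + 1) ^ 2 → ∃ p, Rp A b p

/-- **approximate MH₁, rank free, at many centres** -/
def AMH : Prop := ∃ (C : ℕ) (D P : ℕ → ℕ), Iv.Poly D ∧ Iv.Poly P ∧ ∀ (d : Type) [Fintype d]
  [DecidableEq d] (M : Matrix d d ℝ) (hM : M.PosDef) (μ β ν : Measure (d → ℤ))
  [IsProbabilityMeasure μ] [IsProbabilityMeasure β] [IsProbabilityMeasure ν] (V : Type)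
  [NormedAddCommGroup V] [NormedSpace ℝ V] [CompleteSpace V] (Z : AddSubgroup V) (X : Set (d → ℤ))
  (ψ f h : (d → ℤ) → V) (ε ε' σ : ℝ) (m : ℕ), 0 < ε → 0 < ε' → QI (nq hM) μ → QI (nq hM) β →
  Integrable (fun x => nq hM (ci x)) ν →
  ∫ x, nq hM (ci x) ∂ν ≤ 1 / (2 ^ P m * (Fintype.card d + 2) ^ 4) →
  Af.Tt.Ts {v | Nr Z (C * ε) v} {v | Nr Z ε' v} → (∀ v ∈ Z, ‖v‖ < σ → v = 0) →
  24 * (Fintype.card d + D m + 1) * (ε' + C * ε) < σ →
  1 / 2 ^ m ≤ (μ.prod β).real {p | p.1 ∈ X ∧ Nr Z ε (ψ (p.1 + p.2) - f p.1 - h p.2)} →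
  ∃ T : Set (d → ℤ), 1 / 2 ^ P m ≤ μ.real T ∧ ∀ c ∈ T, ∃ (g : Fin (D m) → d → ℝ)
    (θ : Fin (D m) → ℝ) (L : (d ⊕ Fin (D m) → ℤ) →+ V) (c₀ : V) (A : Set (d → ℤ)),
    1 / (Fintype.card d + 2) ^ P m ≤ ν.real A ∧ ∀ x ∈ A, c + x ∈ X ∧
      (∀ l, |g l ⬝ᵥ ci x - θ l - round (g l ⬝ᵥ ci x - θ l)| ≤ 1 / 2 ^ m) ∧
      Nr Z (9 * (Fintype.card d + D m + 1) * (ε' + C * ε))
        (f (c + x) - c₀ - L (Sum.elim x fun l => round (g l ⬝ᵥ ci x - θ l)))

section meas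
variable {α : Type*} [MeasurableSpace α] [DiscreteMeasurableSpace α]

theorem int_real (μ : Measure α) [IsFiniteMeasure μ] {β : Type*} [MeasurableSpace β]
    (ν : Measure β) [IsProbabilityMeasure ν] (S : α → Set β) :
    Integrable (fun c => ν.real (S c)) μ :=
  .of_bound Measurable.of_discrete.aestronglyMeasurable 1
    (.of_forall fun _ => (Real.norm_of_nonneg measureReal_nonneg).trans_le measureReal_le_one)

theorem markov_ge (μ : Measure α) [IsProbabilityMeasure μ] {F : α → ℝ} (hF : Integrable F μ)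
    (h1 : ∀ x, F x ≤ 1) {a : ℝ} (ha : 0 ≤ a) : ∫ x, F x ∂μ ≤ μ.real {x | a ≤ F x} + a := by
  have := integral_mono hF (((integrable_const (1 : ℝ)).indicator (s := {x | a ≤ F x})
    .of_discrete).add (integrable_const a)) fun x => by
      by_cases c : a ≤ F x <;> simp [c] <;> linarith [h1 x]
  rwa [integral_add' ((integrable_const _).indicator .of_discrete) (integrable_const _),
    integral_indicator_const _ .of_discrete, integral_const, probReal_univ, smul_eq_mul,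
    smul_eq_mul, mul_one, one_mul] at this

omit [DiscreteMeasurableSpace α] in
theorem exists_fib (ν : Measure α) [IsFiniteMeasure ν] {β : Type*} (A : Set α) (F : α → β)
    {B : Finset β} (hB : B.Nonempty) (h : ∀ a ∈ A, F a ∈ B) :
    ∃ y, ν.real A ≤ #B * ν.real (A ∩ F ⁻¹' {y}) := by
  obtain ⟨y, -, k⟩ := exists_max_image B (fun y => ν.real (A ∩ F ⁻¹' {y})) hB
  refine ⟨y, le_trans ?_ ((sum_le_card_nsmul _ _ _ k).trans_eq (nsmul_eq_mul _ _))⟩
  exact (measureReal_mono (fun a ha => by simpa using ⟨ha, h a ha⟩) (measure_ne_top _ _)).trans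
    (measureReal_biUnion_finset_le B fun y => A ∩ F ⁻¹' {y})

omit [DiscreteMeasurableSpace α] in
theorem exists_cellm (ν : Measure α) [IsFiniteMeasure ν] {ι : Type*} [Fintype ι] (A : Set α)
    (θ : ι → α → ℝ) {M : ℕ} (hM : 0 < M) : ∃ A' ⊆ A, ν.real A ≤ M ^ Fintype.card ι * ν.real A' ∧
      ∀ a ∈ A', ∀ b ∈ A', ∀ i, |θ i a - θ i b - round (θ i a - θ i b)| ≤ 1 / M := by
  classical
  obtain ⟨y, k⟩ := exists_fib ν A (fun x i => ⌊Int.fract (θ i x) * M⌋₊)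
    (B := Fintype.piFinset fun _ => range M) ⟨0, by simpa using fun _ => hM⟩ fun x _ =>
      Fintype.mem_piFinset.2 fun i => floor_mem (Int.fract_nonneg _) (Int.fract_lt_one _) hM
  refine ⟨_, Set.inter_subset_left, by simpa using k, fun x hx z hz i =>
    (round_le _ (⌊θ i x⌋ - ⌊θ i z⌋)).trans ?_⟩
  refine le_trans (le_of_eq ?_) (abs_sub_le_of_floor (Int.fract_nonneg _) (Int.fract_nonneg _) hM
    (congrFun (hx.2.trans hz.2.symm) i))
  simp only [Int.fract]; push_cast; ring_nf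

end meas

/-- a quasi-invariant law is a mixture of translates of any narrow law -/
theorem mix {d : Type} [Fintype d] {N : Seminorm ℝ (d → ℝ)} {μ ν : Measure (d → ℤ)}
    [IsProbabilityMeasure μ] [IsProbabilityMeasure ν] (h : QI N μ)
    (hi : Integrable (fun x => N (ci x)) ν) (S : Set (d → ℤ)) :
    |∫ c, ν.real {x | c + x ∈ S} ∂μ - μ.real S| ≤ ∫ x, N (ci x) ∂ν := by
  have e : ∫ c, ν.real {x | c + x ∈ S} ∂μ = ∫ x, μ.real {c | c + x ∈ S} ∂ν := by
    have k := integral_integral_swap (μ := μ) (ν := ν)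
      (f := fun c x => S.indicator (fun _ => (1 : ℝ)) (c + x))
      (.of_bound Measurable.of_discrete.aestronglyMeasurable 1
        (.of_forall fun p => by by_cases c : p.1 + p.2 ∈ S <;> simp [Function.uncurry, c]))
    simp only [← integral_indicator_one (MeasurableSet.of_discrete)]
    exact k
  have e2 := integral_sub (int_real ν μ fun x => {c | c + x ∈ S}) (integrable_const (μ.real S))
  rw [integral_const, probReal_univ, one_smul] at e2
  rw [e, ← e2]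
  refine norm_integral_le_of_norm_le (f := fun x => μ.real {c | c + x ∈ S} - μ.real S) hi
    (.of_forall fun x => abs_le.2 ⟨?_, ?_⟩)
  · have := h S (-x)
    rw [map_neg, map_neg_eq_map, show (· + -x) '' S = {c | c + x ∈ S} by ext; simp] at this
    linarith
  · have := (h {c | c + x ∈ S} x).trans (add_le_add_left (measureReal_mono (s₂ := S)
      (by rintro _ ⟨c, k, rfl⟩; exact k)) _)
    linarith

theorem exists_pad {α : Type*} [Zero α] (Λ : Finset α) {R : ℕ} (h : #Λ ≤ R) :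
    ∃ g : Fin R → α, ∀ ξ ∈ Λ, ∃ l, g l = ξ := by
  obtain ⟨e⟩ := Function.Embedding.nonempty_of_card_le (α := Λ) (β := Fin R) (by simpa using h)
  exact ⟨Function.extend e Subtype.val 0, fun ξ k => ⟨e ⟨ξ, k⟩, e.injective.extend_apply _ _ _⟩⟩

theorem nq_smul {d : Type} [Fintype d] [DecidableEq d] {M : Matrix d d ℝ} (hM : M.PosDef) {s : ℝ}
    (hs : 0 < s) (x : d → ℝ) : nq (hM.smul (pow_pos hs 2)) x = s * nq hM x := by
  rw [nq_scale hM hs, mul_div_cancel₀ _ hs.ne', nq_apply]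

/-- one centre: from an approximate Freiman homomorphism to a bracket linear form -/
theorem amh_one {d V : Type} [Fintype d] [DecidableEq d] {M : Matrix d d ℝ} (hM : M.PosDef)
    [NormedAddCommGroup V] [NormedSpace ℝ V] [CompleteSpace V] {Z : AddSubgroup V} {ε σ r b : ℝ}
    {Q m : ℕ} {A : Set (d → ℤ)} {f : (d → ℤ) → V} (hε : 0 < ε) (hr : 0 < r) (hb : 0 < b)
    (hZ : ∀ v ∈ Z, ‖v‖ < σ → v = 0) (hσ : 24 * (Fintype.card d + Q + 1) * ε < σ)
    (hf : AF 6 Z ε A f) {Λ : Finset (d → ℝ)} (hΛ : #Λ ≤ Q) (hB : ∀ b,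
      (∀ ξ ∈ Λ, |ξ ⬝ᵥ ci b - round (ξ ⬝ᵥ ci b)| ≤ 1 / 2 ^ Q) → nq hM (ci b) ≤ r → ∃ p, Rp A b p)
    {ν : Measure (d → ℤ)} [IsProbabilityMeasure ν] (hi : Integrable (fun x => nq hM (ci x)) ν)
    (hν : ∫ x, nq hM (ci x) ∂ν ≤ b * (r / (4 * (Fintype.card d + Q + 1)))) (c : d → ℤ)
    (hc : 2 * b ≤ ν.real {x | c + x ∈ A}) : ∃ (g : Fin Q → d → ℝ) (θ : Fin Q → ℝ)
      (L : (d ⊕ Fin Q → ℤ) →+ V) (c₀ : V) (A' : Set (d → ℤ)),
      b ≤ (2 * (Fintype.card d + Q + 1) * 2 ^ (Q + m)) ^ Q * ν.real A' ∧ ∀ x ∈ A', c + x ∈ A ∧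
        (∀ l, |g l ⬝ᵥ ci x - θ l - round (g l ⬝ᵥ ci x - θ l)| ≤ 1 / 2 ^ m) ∧
        Nr Z (9 * (Fintype.card d + Q + 1) * ε)
          (f (c + x) - c₀ - L (Sum.elim x fun l => round (g l ⬝ᵥ ci x - θ l))) := by
  obtain ⟨g, hg⟩ := exists_pad Λ hΛ
  obtain ⟨T, hT, eT⟩ := exists_nq hM
  obtain ⟨L, hL⟩ := amh_core T hT g hr (η := 1 / 2 ^ Q) (by positivity) (fun b p q => hB b
    (fun ξ k => let ⟨l, e⟩ := hg ξ k; e ▸ q l) (eT _ ▸ p)) hZ hε (by simpa using hσ) hf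
  rw [Fintype.card_fin] at hL
  set n : ℝ := Fintype.card d + Q + 1 with hn
  have n1 : 1 ≤ n := le_add_of_nonneg_left (by positivity)
  have r0 : 0 < r / (4 * n) := by positivity
  have m1 := (mul_meas_ge_le_integral_of_nonneg (.of_forall fun x => apply_nonneg _ _) hi
    (r / (4 * n))).trans hν
  rw [mul_comm b] at m1
  replace m1 := le_of_mul_le_mul_left m1 r0
  have m2 : ν.real {x | c + x ∈ A} ≤ ν.real ({x | c + x ∈ A} ∩ {x | nq hM (ci x) < r / (4 * n)}) +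
      ν.real {x | r / (4 * n) ≤ nq hM (ci x)} :=
    le_trans (measureReal_mono (fun x hx => (lt_or_ge (nq hM (ci x)) _).imp_left (And.intro hx))
      (measure_ne_top ν (_ ∪ _))) (measureReal_union_le _ _)
  obtain ⟨A', a, k, e⟩ := exists_cellm ν ({x | c + x ∈ A} ∩ {x | nq hM (ci x) < r / (4 * n)})
    (fun l x => g l ⬝ᵥ ci x) (M := 2 * (Fintype.card d + Q + 1) * 2 ^ (Q + m)) (by positivity)
  rw [Fintype.card_fin] at k
  push_cast at k e
  rw [← hn] at k e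
  obtain ⟨y, hy⟩ : A'.Nonempty := Set.nonempty_iff_ne_empty.2 fun z => by
    rw [z, measureReal_empty, mul_zero] at k; linarith
  refine ⟨g, fun l => g l ⬝ᵥ ci y, L, f (c + y) - L (Sum.elim y 0), A', by linarith, fun x hx =>
    ⟨(a hx).1, fun l => (e x hx y hy l).trans (one_div_le_one_div_of_le (by positivity) ?_), ?_⟩⟩
  · rw [pow_add, ← mul_assoc]
    exact le_mul_of_one_le_left (by positivity) (one_le_mul_of_one_le_of_one_le (by linarith)
      (one_le_pow₀ one_le_two))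
  refine (hL (x - y) ?_ (fun l => ?_) ![c + x, c + y, c + y, c + y]
    ⟨by simpa [Fin.forall_fin_succ] using ⟨(a hx).1, (a hy).1⟩, by
      simp only [Matrix.cons_val]; abel⟩).of_eq ?_
  · rw [eT, map_sub]
    have p : nq hM (ci x) < r / (4 * n) := (a hx).2
    have q : nq hM (ci y) < r / (4 * n) := (a hy).2
    refine (map_sub_le_add _ _ _).trans ((add_le_add p.le q.le).trans_eq ?_)
    field_simp; norm_num
  · rw [map_sub, dotProduct_sub, div_div]
    refine (e x hx y hy l).trans (one_div_le_one_div_of_le (by positivity) ?_)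
    rw [mul_comm]
    exact mul_le_mul_of_nonneg_left (pow_le_pow_right₀ one_le_two (by omega)) (by positivity)
  · have : lf g (x - y) = (Sum.elim x fun l => round (g l ⬝ᵥ ci x - g l ⬝ᵥ ci y)) - Sum.elim y 0 := by
      ext (i | l) <;> simp [lf]
    rw [this, map_sub]
    simp only [vl4, Matrix.cons_val, add_sub_cancel_right]; abel

/-- **aMH₁** -/
theorem amh_of (hA : LAF) (hS : LS) : AMH := by
  obtain ⟨C, hA⟩ := hA
  obtain ⟨P, hP, hS⟩ := hS
  have pk : Iv.Poly fun m => C * (m + 1) := (Iv.Poly.const C).mul (Iv.Poly.id.add (.const 1))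
  have pQ := hP.comp pk
  refine ⟨C, fun m => P (C * (m + 1)), fun m => 3 * (C * (m + 1)) + 4 * P (C * (m + 1)) + 10 +
    P (C * (m + 1)) * (2 * P (C * (m + 1)) + m + 2), pQ, ((((Iv.Poly.const 3).mul pk).add
    ((Iv.Poly.const 4).mul pQ)).add (.const 10)).add (pQ.mul ((((Iv.Poly.const 2).mul pQ).add
    .id).add (.const 2))), fun d _ _ M hM μ β ν _ _ _ V _ _ _ Z X ψ f h ε ε' σ m e0 e1 hμ hβ hi hν hT
    hZ hσ hm => ?_⟩
  beta_reduce at *
  set k := C * (m + 1)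
  set Q := P k
  set n : ℝ := (Fintype.card d : ℝ) with hn
  have n0 : 0 ≤ n := Nat.cast_nonneg _
  have Q1 : (Q : ℝ) + 1 ≤ 2 ^ Q := by exact_mod_cast Nat.lt_two_pow_self
  have Q2 : n + Q + 1 ≤ (n + 2) * 2 ^ Q := by nlinarith [one_le_pow₀ (n := Q) (one_le_two (α := ℝ))]
  set s : ℝ := (n + 2) * 2 ^ (2 * k + 3) with hs
  have s0 : 0 < s := by positivity
  have := gm_prob (hM.smul (pow_pos s0 2)) 0
  set ν₁ := gm (s ^ 2 • M) 0
  have i1 : ∫ x, nq hM (ci x) ∂ν₁ ≤ 1 / 2 ^ (2 * k + 3) :=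
    (integral_nq hM s0).trans_eq (by rw [hs]; field_simp; rfl)
  have s4 : 0 < 4 * s := by positivity
  have q1 : QI (nq (hM.smul (pow_pos s4 2))) ν₁ := fun S z => by
    have := gm_qi (hM.smul (pow_pos s0 2)) 0 S z
    rw [nq_smul hM s4, mul_assoc, ← nq_smul hM s0]
    exact this
  set r : ℝ := 1 / 2 ^ (3 * Q) / (n + 1) ^ 2 / (4 * s) with hr
  have i2 : ∫ x, nq hM (ci x) ∂ν ≤ 1 / 2 ^ (k + 3) * (r / (4 * (n + Q + 1))) := by
    refine hν.trans ?_
    rw [hr, div_div, div_div, div_div, div_mul_div_comm, one_mul]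
    refine one_div_le_one_div_of_le (by positivity) ?_
    calc _ ≤ 2 ^ (k + 3) * (2 ^ (3 * Q) * ((n + 2) ^ 2 * (4 * s * (4 * ((n + 2) * 2 ^ Q))))) := by
          gcongr; norm_num
      _ = 2 ^ (3 * k + 4 * Q + 10) * (n + 2) ^ 4 := by rw [hs]; ring
      _ ≤ _ := mul_le_mul_of_nonneg_right (pow_le_pow_right₀ one_le_two (Nat.le_add_right _ _))
          (by positivity)
  have r1 : 4 * s * (r / (4 * (n + Q + 1))) ≤ 1 := by
    rw [hr, ← mul_div_assoc, mul_div_cancel₀ _ s4.ne', div_div, div_div, div_le_one (by positivity)]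
    refine one_le_mul_of_one_le_of_one_le (one_le_pow₀ one_le_two) (one_le_mul_of_one_le_of_one_le
      (one_le_pow₀ (by linarith)) ?_)
    linarith [Nat.cast_nonneg (α := ℝ) Q]
  obtain ⟨T, hT1, hT2⟩ := hA d (nq hM) μ β ν₁ V Z X ψ f h ε ε' m e0 hμ hβ (integrable_nq hM s0)
    (i1.trans (one_div_le_one_div_of_le (by positivity) (pow_le_pow_right₀ one_le_two (by omega))))
    hT hm
  set G := {c : d → ℤ | ∃ (g : Fin Q → d → ℝ) (θ : Fin Q → ℝ) (L : (d ⊕ Fin Q → ℤ) →+ V) (c₀ : V)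
    (A : Set (d → ℤ)), 1 / (n + 2) ^ (3 * k + 4 * Q + 10 + Q * (2 * Q + m + 2)) ≤ ν.real A ∧
      ∀ x ∈ A, c + x ∈ X ∧ (∀ l, |g l ⬝ᵥ ci x - θ l - round (g l ⬝ᵥ ci x - θ l)| ≤ 1 / 2 ^ m) ∧
      Nr Z (9 * (n + Q + 1) * (ε' + C * ε))
        (f (c + x) - c₀ - L (Sum.elim x fun l => round (g l ⬝ᵥ ci x - θ l)))}
  have key : ∀ t ∈ T, 1 / 2 ^ (k + 2) ≤ ν₁.real {c | t + c ∈ G} := fun t ht => by
    obtain ⟨A, a1, a2, a3⟩ := hT2 t ht
    obtain ⟨Λ, l1, l2⟩ := hS d _ _ ν₁ A k q1 a1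
    have b1 := (abs_le.1 (mix q1 (by simpa only [nq_smul hM s4] using hi.const_mul _) A)).1
    simp only [nq_smul hM s4, integral_const_mul] at b1
    have b2 := markov_ge ν₁ (int_real ν₁ ν fun c => {x | c + x ∈ A}) (fun _ => measureReal_le_one)
      (a := 2 * (1 / 2 ^ (k + 3))) (by positivity)
    have b3 := (mul_le_mul_of_nonneg_left i2 s4.le).trans ((mul_left_comm _ _ _).trans_le
      (mul_le_of_le_one_right (by positivity) r1))
    refine le_trans ?_ (measureReal_mono (s₁ := {c | 2 * (1 / 2 ^ (k + 3)) ≤ ν.real {x | c + x ∈ A}})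
      (fun c hc => ?_) (measure_ne_top _ _))
    · simp only [pow_add, ← one_div_mul_one_div] at b2 b3 ⊢
      have : (0 : ℝ) < 1 / 2 ^ k := by positivity
      linarith
    obtain ⟨g, θ, L, c₀, A', c1, c2⟩ := amh_one hM (m := m) (r := r) (by positivity) (by positivity)
      (by positivity) hZ hσ a3 l1 (fun b p q => l2 b p (by
        rw [nq_smul hM s4, ← le_div_iff₀' s4]; exact q)) hi i2 c hc
    refine ⟨g, θ, L, c₀, A', ?_, fun x hx => by
      rw [add_assoc]; exact ⟨a2 _ (c2 x hx).1, (c2 x hx).2⟩⟩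
    rw [div_le_iff₀ (by positivity)] at c1 ⊢
    refine c1.trans ?_
    rw [mul_comm _ (ν.real A'), mul_assoc, add_comm (_ + 10), pow_add (n + 2), mul_comm Q, pow_mul]
    have w : ∀ j : ℕ, (2 : ℝ) ^ j ≤ (n + 2) ^ j := fun j => by gcongr; linarith
    gcongr
    · calc _ ≤ 2 * ((n + 2) * 2 ^ Q) * 2 ^ (Q + m) := by gcongr
        _ = 2 ^ (2 * Q + m + 1) * (n + 2) := by ring
        _ ≤ _ := by rw [pow_succ (n + 2)]; gcongr; linarith
    · exact (w _).trans (pow_le_pow_right₀ (by linarith) (by omega))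
  have b1 := (abs_le.1 (mix hμ (integrable_nq hM s0) G)).2
  have b2 := integral_mono ((integrable_const (1 / 2 ^ (k + 2) : ℝ)).indicator (s := T) .of_discrete)
    (int_real μ ν₁ fun t => {c | t + c ∈ G}) fun t => by
      by_cases c : t ∈ T
      · rw [Set.indicator_of_mem c]; exact key t c
      · rw [Set.indicator_of_notMem c]; exact measureReal_nonneg
  rw [integral_indicator_const _ .of_discrete, smul_eq_mul] at b2
  refine ⟨G, (one_div_le_one_div_of_le (by positivity) (pow_le_pow_right₀ one_le_two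
    (by omega : 2 * k + 3 ≤ _))).trans ?_, fun _ c => c⟩
  have := mul_le_mul_of_nonneg_right hT1 (by positivity : (0 : ℝ) ≤ 1 / 2 ^ (k + 2))
  have e : (1 : ℝ) / 2 ^ k * (1 / 2 ^ (k + 2)) = 2 * (1 / 2 ^ (2 * k + 3)) := by field_simp; ring
  linarith

end Crest.Agent.N49.Lo
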