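import Crest.Agent.N49.Lo.Bog
import Crest.Agent.N49.Lo.Push

/-!
# Row 49 (helper72): the local Bogolyubov–Sanders lemma on a lattice
-/

set_option autoImplicit false
open Finset MeasureTheory Matrix
open scoped BigOperators

namespace Crest.Agent.N49.Lo

open La Po To

variable {d : Type} [Fintype d] [DecidableEq d] {M : Matrix d d ℝ}

omit [DecidableEq d] in
theorem exists_fin (μ : Measure (d → ℤ)) [IsFiniteMeasure μ] (A : Set (d → ℤ)) {c : ℝ}
    (h : c < μ.real A) : ∃ B : Finset (d → ℤ), (B : Set (d → ℤ)) ⊆ A ∧ c < μ.real B := by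
  rcases lt_or_ge c 0 with k | k
  · exact ⟨∅, by simp, by simpa using k⟩
  obtain ⟨K, a, b, e⟩ := (MeasurableSet.of_discrete (s := A)).exists_lt_isCompact (μ := μ)
    (r := ENNReal.ofReal c) ((ENNReal.ofReal_lt_iff_lt_toReal k (measure_ne_top _ _)).2 h)
  refine ⟨b.finite_of_discrete.toFinset, by simpa using a, ?_⟩
  rw [Set.Finite.coe_toFinset]
  exact (ENNReal.ofReal_lt_iff_lt_toReal k (measure_ne_top _ _)).1 e

omit [DecidableEq d] in
/-- a modulus that is injective on a finite set -/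
theorem exists_mod (B : Set (d → ℤ)) (hB : B.Finite) : ∃ N : ℕ, 0 < N ∧
    ∀ u ∈ B, pz d N u = 0 → u = 0 := by
  obtain ⟨R, hR⟩ := (hB.image fun u => ∑ i, |u i|).bddAbove
  refine ⟨R.toNat + 1, by omega, fun u hu e => funext fun i => ?_⟩
  have a : |u i| ≤ R := (single_le_sum (f := fun i => |u i|) (fun _ _ => abs_nonneg _)
    (mem_univ i)).trans (hR ⟨u, hu, rfl⟩)
  exact Int.eq_zero_of_abs_lt_dvd ((ZMod.intCast_zmod_eq_zero_iff_dvd _ _).1 (congrFun e i))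
    (show |u i| < ((R.toNat + 1 : ℕ) : ℤ) by push_cast; omega)

theorem qi_scale (hM : M.PosDef) {s : ℝ} (hs : 0 < s) (θ : d → ℝ) :
    ∃ N : Seminorm ℝ (d → ℝ), QI N (gm (s ^ 2 • M) θ) ∧ ∀ x, N x ≤ 4 * s * nq hM x := by
  have h : (s ^ 2 • M).PosDef := hM.smul (by positivity)
  refine ⟨_, gm_qi h θ, fun x => le_of_eq ?_⟩
  rw [nq_scale hM hs, _root_.smul_apply, nq_apply, NNReal.smul_def, smul_eq_mul]
  push_cast; field_simp

/-- the exponent of the local Bogolyubov–Sanders lemma -/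
def lsP (m : ℕ) : ℕ := apP (m + 2) 1

/-- **local Bogolyubov–Sanders on a lattice**: the number of frequencies only depends on the
density -/
theorem lsan (hM : M.PosDef) {μ : Measure (d → ℤ)} [IsProbabilityMeasure μ]
    {N : Seminorm ℝ (d → ℝ)} (h : QI N μ) (hN : ∀ x, N x ≤ 4 * nq hM x) {A : Set (d → ℤ)} {m : ℕ}
    (hA : 1 ≤ 2 ^ m * μ.real A) : ∃ D ≤ lsP m, ∃ g : Fin D → d → ℝ, ∀ b : d → ℤ,
      nq hM (ci b) ≤ 1 / (2 ^ (4 * lsP m) * (Fintype.card d + 2) ^ 2) →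
      (∀ l, |g l ⬝ᵥ ci b - round (g l ⬝ᵥ ci b)| ≤ 1 / 2 ^ (2 * lsP m)) →
        ∃ p : Fin 4 → d → ℤ, (∀ i, p i ∈ A) ∧ b = p 0 - p 1 + p 2 - p 3 := by
  classical
  obtain ⟨B, b1, b2⟩ := exists_fin μ A (c := 1 / 2 ^ (m + 1)) (by
    rw [div_lt_iff₀ (by positivity), pow_succ]; linarith)
  obtain ⟨n, n0, hn⟩ := exists_mod _ ((((finite_ell hM 0 1).prod (Set.Finite.pi' fun _ : Fin 4 =>
    B.finite_toSet))).image fun x => x.1 - (x.2 0 - x.2 1 + x.2 2 - x.2 3))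
  have : NeZero n := ⟨n0.ne'⟩
  obtain ⟨P, hP⟩ : ∃ P, P = lsP m := ⟨_, rfl⟩
  have P1 : 64 * (m + 2 + 1 + 4) ≤ P := (le_apP (m + 2) 1).trans_eq hP.symm
  obtain ⟨k, hk⟩ : ∃ k : ℝ, k = Fintype.card d + 2 := ⟨_, rfl⟩
  have k0 : 1 ≤ k := by rw [hk]; linarith [Nat.cast_nonneg (α := ℝ) (Fintype.card d)]
  obtain ⟨s, hs⟩ : ∃ s : ℝ, s = 8 * k * 2 ^ P := ⟨_, rfl⟩
  have s0 : 0 < s := by rw [hs]; positivity
  have s1 : 1 ≤ s := by
    rw [hs]; exact one_le_mul_of_one_le_of_one_le (by linarith) (one_le_pow₀ one_le_two)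
  have := gm_prob (hM.smul (by positivity : 0 < s ^ 2)) 0
  have := gm_prob (hM.smul (by positivity : 0 < (s ^ 2) ^ 2)) 0
  obtain ⟨Na, qa, ha⟩ := qi_scale hM s0 0
  obtain ⟨Ns, qs, hs'⟩ := qi_scale hM (pow_pos s0 2) 0
  have e1 : 2 * 4 * (k / s) = 1 / 2 ^ P := by rw [hs]; field_simp; norm_num
  obtain ⟨Λ, l1, l2⟩ := bog_set (pr_push (pz d n) (gm (s ^ 2 • M) 0)) (pr_push (pz d n) μ)
    (pr_push (pz d n) (gm ((s ^ 2) ^ 2 • M) 0)) (A := B.image (pz d n)) (m := m + 1) (by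
      rw [sum_push]
      rw [div_lt_iff₀' (by positivity)] at b2
      refine b2.le.trans (mul_le_mul_of_nonneg_left (measureReal_mono fun x hx => ?_) (by positivity))
      exact mem_image_of_mem _ hx) (by
      refine (sum_push_tv _ hM (pow_pos s0 2) (by positivity) qa ha).trans (le_of_eq ?_)
      rw [← lsP, ← hP, ← hk, ← e1]; field_simp) (by
      refine (sum_push_tv _ hM (pow_pos s0 2) (by positivity) h hN).trans ?_
      rw [← lsP, ← hP, ← hk, ← e1]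
      gcongr
      nlinarith) (by
      refine (sum_push_tv _ hM s0 (by positivity) h hN).trans (le_of_eq ?_)
      rw [← lsP, ← hP, ← hk, ← e1])
  rw [← lsP, ← hP] at l1 l2
  choose ξ hξ using exists_xi (pz d n)
  rw [← hP, ← hk]
  refine ⟨#Λ, l1, fun l => ξ (Λ.equivFin.symm l), fun b c1 c2 => ?_⟩
  have q0 : 0 ≤ nq hM (ci b) := apply_nonneg _ _
  have c3 : 2 * (4 * s ^ 2 * nq hM (ci b)) ≤ 1 / 2 ^ P := by
    refine le_trans ?_ (mul_ip_le (a := 2 * P + 9) (c := P) (le_refl ((1 : ℝ) / 2 ^ (4 * P)))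
      (by omega))
    calc _ ≤ 2 * (4 * s ^ 2 * (1 / (2 ^ (4 * P) * k ^ 2))) := by gcongr
      _ = _ := by rw [hs]; field_simp; ring
  have s2 : 1 ≤ s ^ 2 := one_le_pow₀ s1
  obtain ⟨p, p1, p2⟩ := l2 (pz d n b) (by
      refine (sum_le_card_nsmul _ _ (8 * (1 / 2 ^ (2 * P)) : ℝ) fun γ c => (hξ γ b).trans ?_).trans ?_
      · have := c2 (Λ.equivFin ⟨γ, c⟩)
        simp only [Equiv.symm_apply_apply] at this
        exact mul_le_mul_of_nonneg_left this (by norm_num)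
      · refine le_trans ?_ (mul_ip_le (a := P + 3) (c := m + 1 + 5)
          (le_refl ((1 : ℝ) / 2 ^ (2 * P))) (by omega))
        rw [nsmul_eq_mul, ← mul_assoc]
        refine mul_le_mul_of_nonneg_right ?_ (by positivity)
        have e : (#Λ : ℝ) ≤ 2 ^ P := le_trans (by exact_mod_cast l1) (nat_le_pow P)
        rw [pow_add _ _ 3]; linarith) ((tv_push _ qs b).trans (le_trans (by linarith [hs' (ci b)]) c3))
    ((tv_push _ h b).trans (le_trans (by nlinarith [hN (ci b)]) c3))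
  choose a a1 a2 using fun i => mem_image.1 (p1 i)
  refine ⟨a, fun i => b1 (a1 i), sub_eq_zero.1 (hn _ ⟨(b, a), ⟨?_, fun i => a1 i⟩, rfl⟩ ?_)⟩
  · have t : nq hM (ci b) ≤ 1 := by
      have := c3.trans (ip_le (Nat.zero_le P))
      nlinarith
    rw [nq_apply, Real.sqrt_le_one] at t
    simpa [ci_eq_zc] using t
  · simp only [map_sub, map_add, a2, p2, sub_self]

end Crest.Agent.N49.Lo
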