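import Crest.Agent.N49.Lo.Amh1
import Crest.Agent.N49.Lo.Zd
import Crest.Agent.N49.Af.LafM

/-! Row 49 (helper95): the rank-free approximate MH₁. -/

set_option autoImplicit false
open Finset Matrix

namespace Crest.Agent.N49.Lo

open La Po To

theorem ls : LS := by
  classical
  refine ⟨fun m => 2 * lsP m, (Iv.Poly.const 2).mul ((((Iv.Poly.const (2 ^ 14)).mul
    ((Iv.Poly.id.add (Iv.Poly.const 7)).pow 4)).mul (Iv.Poly.const 4)).of_le fun m => le_of_eq
      (by simp only [lsP, apP]; ring)), fun d _ _ M hM μ _ A m q h => ?_⟩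
  obtain ⟨D, hD, g, hg⟩ := lsan hM q (fun x => by linarith [apply_nonneg (nq hM) x]) (A := A) (m := m)
    (by rwa [div_le_iff₀' (by positivity)] at h)
  refine ⟨univ.image g, card_image_le.trans (by simpa using by omega), fun b h1 h2 =>
    hg b (h2.trans ?_) fun l => h1 _ (mem_image_of_mem _ (mem_univ l))⟩
  have p : 1 ≤ lsP m := Nat.pos_of_ne_zero (by unfold lsP apP; positivity)
  have n := Nat.cast_nonneg (α := ℝ) (Fintype.card d)
  have e : (2 : ℝ) ^ 2 ≤ 2 ^ (2 * lsP m) := pow_le_pow_right₀ one_le_two (by omega)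
  rw [div_div, show 3 * (2 * lsP m) = 4 * lsP m + 2 * lsP m by ring, pow_add, mul_assoc]
  refine one_div_le_one_div_of_le (by positivity) (mul_le_mul_of_nonneg_left ?_ (by positivity))
  nlinarith [mul_le_mul_of_nonneg_right e (sq_nonneg ((Fintype.card d : ℝ) + 1))]

/-- **approximate MH₁, rank free** -/
theorem amh : AMH := amh_of Af.lafM ls

end Crest.Agent.N49.Lo
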