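import Crest.Agent.N49.Lo.Ap

/-!
# Row 49 (helper72): the local Bogolyubov–Sanders lemma
-/

set_option autoImplicit false
open Finset
open scoped BigOperators

namespace Crest.Agent.N49.Lo

theorem Pr.cond {α : Type*} [Fintype α] {w g : α → ℝ} (hw : Pr w) (g0 : ∀ x, 0 ≤ g x) {s : ℝ}
    (hs : s = ∑ x, w x * g x) (s0 : 0 < s) : Pr fun x => w x * g x / s :=
  ⟨fun x => div_nonneg (mul_nonneg (hw.1 x) (g0 x)) s0.le, by rw [← sum_div, ← hs, div_self s0.ne']⟩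

theorem cond_le {w g s K : ℝ} (w0 : 0 ≤ w) (g1 : g ≤ 1) (s0 : 0 < s) (h : 1 ≤ K * s) :
    w * g / s ≤ K * w := by
  rw [div_le_iff₀ s0, mul_right_comm]
  exact (mul_le_of_le_one_right w0 g1).trans (le_mul_of_one_le_left w0 h)

theorem le_apP (m j : ℕ) : 64 * (m + j + 4) ≤ apP m j := by
  have := Nat.le_self_pow (n := 4) (by norm_num) (m + j + 4)
  have k : 1 ≤ 4 ^ j := Nat.one_le_pow _ _ (by norm_num)
  rw [apP]
  nlinarith

variable {G : Type*} [AddCommGroup G] [Fintype G]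

/-- **robust local Bogolyubov–Sanders**, two weights -/
theorem bog {α β σ g h : G → ℝ} (hα : Pr α) (hβ : Pr β) (hσ : Pr σ) (g0 : ∀ x, 0 ≤ g x)
    (g1 : ∀ x, g x ≤ 1) (h0 : ∀ x, 0 ≤ h x) (h1 : ∀ x, h x ≤ 1) {m : ℕ}
    (hg : 1 ≤ 2 ^ m * ∑ x, α x * g x) (hh : 1 ≤ 2 ^ m * ∑ x, β x * h x)
    (s1 : ∑ t, σ t * tv α t ≤ 1 / 2 ^ apP m 1) (s2 : ∑ t, σ t * tv β t ≤ 1 / 2 ^ apP m 1)
    (s3 : ∑ t, α t * tv β t ≤ 1 / 2 ^ apP m 1) :
    ∃ Λ : Finset (AddChar G ℂ), #Λ ≤ apP m 1 ∧ ∀ u, ∑ ψ ∈ Λ, ‖ψ u - 1‖ ≤ 1 / 2 ^ (m + 4) →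
      tv σ u ≤ 1 / 2 ^ apP m 1 → tv β u ≤ 1 / 2 ^ apP m 1 → 1 ≤ 2 ^ (4 * m + 5) *
        ∑ y, β y * h y * ∑ x, α x * g x * ∑ x', α x' * g x' * h (y + x' - x - u) := by
  obtain ⟨p, hp⟩ : ∃ p, p = ∑ x, α x * g x := ⟨_, rfl⟩
  obtain ⟨s, hs⟩ : ∃ s, s = ∑ x, β x * h x := ⟨_, rfl⟩
  rw [← hp] at hg
  rw [← hs] at hh
  have p0 : 0 < p := pos_of_mul_pos_right (one_pos.trans_le hg) (by positivity)
  have s0 : 0 < s := pos_of_mul_pos_right (one_pos.trans_le hh) (by positivity)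
  have ha := hα.cond g0 hp p0
  have hb := hβ.cond h0 hs s0
  have aα := fun x => cond_le (hα.1 x) (g1 x) p0 hg
  obtain ⟨r, hr⟩ : ∃ r : G → ℝ, ∀ d, r d = ∑ x, α x * g x / p * h (x - d) := ⟨_, fun _ => rfl⟩
  obtain ⟨f, hf⟩ : ∃ f : G → ℝ, ∀ d, f d = if s / 8 ≤ r d then 1 else 0 := ⟨_, fun _ => rfl⟩
  have f0 : ∀ d, 0 ≤ f d := fun d => by rw [hf]; split_ifs <;> norm_num
  have f1 : ∀ d, f d ≤ 1 := fun d => by rw [hf]; split_ifs <;> norm_num
  have r0 : ∀ d, 0 ≤ r d := fun d => hr d ▸ ha.ge fun _ => h0 _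
  obtain ⟨Λ, l1, l2⟩ := ap ha hb hα hβ hσ aα (fun x => cond_le (hβ.1 x) (h1 x) s0 hh) f0 f1 1 s1 s2 s3
  refine ⟨Λ, l1, fun u c1 c2 c3 => ?_⟩
  have k := (abs_le.1 (l2 u 0 c1 c2 c3 (by rw [tv_zero]; positivity))).1
  have t0 : 3 / 4 ≤ T (fun x => α x * g x / p) (fun x => β x * h x / s) f 0 := by
    have e : 1 - T (fun x => α x * g x / p) (fun x => β x * h x / s) f 0 =
        (∑ x, α x * g x / p * ∑ y, β y * (h y * (1 - f (x - y)))) / s := by
      trans ∑ y, β y * h y / s * ∑ x, α x * g x / p * (1 - f (0 - y + x))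
      · simp only [T, mul_sub, sum_sub_distrib, ha.const, hb.const]
      simp only [mul_sum]
      rw [sum_comm, sum_div]
      refine sum_congr rfl fun x _ => ?_
      rw [sum_div]
      refine sum_congr rfl fun y _ => ?_
      rw [zero_sub, neg_add_eq_sub]; ring
    have a1 : ∀ x, ∑ y, β y * (h y * (1 - f (x - y))) ≤
        ∑ y, β y * (h (x + y) * (1 - f (-y))) + tv β x := fun x => by
      have := (abs_le.1 (abs_shift β (F := fun y => h y * (1 - f (x - y))) (B := 1) (fun y => by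
        rw [abs_of_nonneg (mul_nonneg (h0 _) (sub_nonneg.2 (f1 _)))]
        exact mul_le_one₀ (h1 _) (sub_nonneg.2 (f1 _)) (by linarith [f0 (x - y)])) (-x))).1
      simp only [sub_neg_eq_add, tv_neg, add_comm _ x, sub_add_cancel_left] at this
      linarith
    have a2 : ∑ x, α x * g x / p * ∑ y, β y * (h (x + y) * (1 - f (-y))) ≤ s / 8 := by
      refine le_trans (le_of_eq ?_) (hβ.le (F := fun y => r (-y) * (1 - f (-y))) fun y => ?_)
      · simp only [hr, mul_sum, sum_mul, sub_neg_eq_add]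
        rw [sum_comm]
        exact sum_congr rfl fun _ _ => sum_congr rfl fun _ _ => by ring
      · rw [hf]
        split_ifs with c
        · rw [sub_self, mul_zero]; positivity
        · rw [sub_zero, mul_one]; exact (not_le.1 c).le
    have a3 : ∑ x, α x * g x / p * tv β x ≤ s / 8 := by
      have b1 : ∑ x, α x * g x / p * tv β x ≤ 2 ^ m * ∑ x, α x * tv β x := by
        rw [mul_sum]
        exact sum_le_sum fun x _ => by
          rw [← mul_assoc]; exact mul_le_mul_of_nonneg_right (aα x) (tv_nonneg _ _)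
      refine b1.trans ((mul_ip_le (c := m + 3) s3 (by have := le_apP m 1; omega)).trans ?_)
      rw [div_le_div_iff₀ (by positivity) (by norm_num), pow_add]
      linarith
    have a4 := sum_le_sum fun x (_ : x ∈ univ) => mul_le_mul_of_nonneg_left (a1 x) (ha.1 x)
    simp only [mul_add, sum_add_distrib] at a4
    have a5 : (∑ x, α x * g x / p * ∑ y, β y * (h y * (1 - f (x - y)))) / s ≤ 1 / 4 := by
      rw [div_le_iff₀ s0]; linarith
    linarith
  have t1 : s / 8 * T (fun x => α x * g x / p) (fun x => β x * h x / s) f (0 + u) ≤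
      (∑ y, β y * h y * ∑ x, α x * g x * ∑ x', α x' * g x' * h (y + x' - x - u)) / (s * p ^ 2) := by
    rw [T, mul_sum, sum_div]
    refine sum_le_sum fun y _ => ?_
    rw [mul_left_comm, mul_sum, show ∀ A B : ℝ, A * B / (s * p ^ 2) = A / s * (B / p ^ 2) from
      fun A B => by field_simp, sum_div]
    refine mul_le_mul_of_nonneg_left (sum_le_sum fun x _ => ?_) (hb.1 y)
    rw [mul_left_comm, show ∀ A B : ℝ, A * B / p ^ 2 = A / p * (B / p) from
      fun A B => by field_simp]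
    refine mul_le_mul_of_nonneg_left (le_trans (b := r (0 + u - y + x)) ?_ (le_of_eq ?_)) (ha.1 x)
    · rw [hf]
      split_ifs with c
      · rwa [mul_one]
      · rw [mul_zero]; exact r0 _
    · rw [hr, sum_div]
      exact sum_congr rfl fun x' _ => by
        rw [show x' - (0 + u - y + x) = y + x' - x - u by abel]; ring
  rw [le_div_iff₀ (by positivity)] at t1
  have t2 : s / 8 * (1 / 4) * (s * p ^ 2) ≤ _ := le_trans (mul_le_mul_of_nonneg_right
    (mul_le_mul_of_nonneg_left (by linarith) (by positivity)) (by positivity)) t1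
  refine le_trans ?_ (mul_le_mul_of_nonneg_left t2 (by positivity))
  calc (1 : ℝ) ≤ (2 ^ m * s) ^ 2 * (2 ^ m * p) ^ 2 :=
        one_le_mul_of_one_le_of_one_le (one_le_pow₀ hh) (one_le_pow₀ hg)
    _ = _ := by ring

/-- a set has the same density on some translate of a narrower weight -/
theorem exists_translate {α β : G → ℝ} (hα : Pr α) (hβ : Pr β) {h : G → ℝ} {B : ℝ}
    (h1 : ∀ x, |h x| ≤ B) :
    ∃ c, ∑ x, β x * h x - B * ∑ t, α t * tv β t ≤ ∑ x, α x * h (x + c) := by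
  obtain ⟨c, hc⟩ := hβ.exists_ge fun c => ∑ x, α x * h (x + c)
  refine ⟨c, le_trans ?_ hc⟩
  simp only [mul_sum univ _ (β _), mul_left_comm (β _)]
  rw [sum_comm, ← hα.const (∑ x, β x * h x), mul_sum, ← sum_sub_distrib]
  refine sum_le_sum fun x _ => ?_
  have := (abs_le.1 (abs_shift β h1 (-x))).1
  simp only [sub_neg_eq_add, tv_neg, add_comm _ x] at this
  rw [← mul_sum, mul_left_comm B, ← mul_sub]
  exact mul_le_mul_of_nonneg_left (by linarith) (hα.1 x)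

/-- **local Bogolyubov–Sanders**, one set -/
theorem bog_set {α β σ : G → ℝ} (hα : Pr α) (hβ : Pr β) (hσ : Pr σ) {A : Finset G} {m : ℕ}
    (hA : 1 ≤ 2 ^ m * ∑ x ∈ A, β x) (s1 : ∑ t, σ t * tv α t ≤ 1 / 2 ^ apP (m + 1) 1)
    (s2 : ∑ t, σ t * tv β t ≤ 1 / 2 ^ apP (m + 1) 1)
    (s3 : ∑ t, α t * tv β t ≤ 1 / 2 ^ apP (m + 1) 1) :
    ∃ Λ : Finset (AddChar G ℂ), #Λ ≤ apP (m + 1) 1 ∧ ∀ u, ∑ ψ ∈ Λ, ‖ψ u - 1‖ ≤ 1 / 2 ^ (m + 5) →
      tv σ u ≤ 1 / 2 ^ apP (m + 1) 1 → tv β u ≤ 1 / 2 ^ apP (m + 1) 1 →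
        ∃ p : Fin 4 → G, (∀ i, p i ∈ A) ∧ u = p 0 - p 1 + p 2 - p 3 := by
  classical
  obtain ⟨h, hh⟩ : ∃ h : G → ℝ, ∀ x, h x = if x ∈ A then 1 else 0 := ⟨_, fun _ => rfl⟩
  have h0 : ∀ d, 0 ≤ h d := fun d => by rw [hh]; split_ifs <;> norm_num
  have h1 : ∀ d, h d ≤ 1 := fun d => by rw [hh]; split_ifs <;> norm_num
  have e : ∑ x, β x * h x = ∑ x ∈ A, β x := by simp [hh]
  obtain ⟨c, hc⟩ := exists_translate hα hβ (B := 1) (h := h) fun x => by
    rw [abs_of_nonneg (h0 x)]; exact h1 x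
  have a := mul_ip_le (a := m + 1) (c := 0) s3 (by have := le_apP (m + 1) 1; omega)
  have b := mul_le_mul_of_nonneg_left hc (by positivity : (0 : ℝ) ≤ 2 ^ (m + 1))
  obtain ⟨Λ, l1, l2⟩ := bog hα hβ hσ (g := fun x => h (x + c)) (fun _ => h0 _) (fun _ => h1 _) h0 h1
    (m := m + 1) (by rw [e, pow_succ] at b; rw [pow_succ] at a ⊢; linarith)
    (by rw [e, pow_succ]; linarith) s1 s2 s3
  refine ⟨Λ, l1, fun u c1 c2 c3 => ?_⟩
  have k := l2 u c1 c2 c3
  have mem : ∀ x, h x ≠ 0 → x ∈ A := fun x k => by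
    by_contra c
    exact k (by rw [hh, if_neg c])
  obtain ⟨y, -, k1⟩ := exists_ne_zero_of_sum_ne_zero
    (right_ne_zero_of_mul (one_pos.trans_le k).ne')
  obtain ⟨x, -, k2⟩ := exists_ne_zero_of_sum_ne_zero (right_ne_zero_of_mul k1)
  obtain ⟨x', -, k3⟩ := exists_ne_zero_of_sum_ne_zero (right_ne_zero_of_mul k2)
  refine ⟨![y, y + x' - x - u, x' + c, x + c], fun i => ?_, by simp; abel⟩
  fin_cases i
  exacts [mem _ (right_ne_zero_of_mul (left_ne_zero_of_mul k1)), mem _ (right_ne_zero_of_mul k3),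
    mem _ (right_ne_zero_of_mul (left_ne_zero_of_mul k3)),
    mem _ (right_ne_zero_of_mul (left_ne_zero_of_mul k2))]

end Crest.Agent.N49.Lo
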