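import Crest.Agent.N49.Lo.Defs

/-!
# Row 49 (helper72): Chang's lemma relative to a weight
-/

set_option autoImplicit false
open Finset
open scoped BigOperators ComplexConjugate

namespace Crest.Agent.N49.Lo

variable {G : Type*} [AddCommGroup G] [Fintype G]

/-- `θ` is controlled by `Λ` -/
def Near (Λ : Finset (AddChar G ℂ)) (θ : AddChar G ℂ) : Prop :=
  ∀ b, ‖θ b - 1‖ ≤ ∑ ψ ∈ Λ, ‖ψ b - 1‖

theorem norm_add_sub (θ ψ : AddChar G ℂ) (b : G) : ‖(θ + ψ) b - 1‖ ≤ ‖θ b - 1‖ + ‖ψ b - 1‖ := by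
  rw [AddChar.add_apply, show θ b * ψ b - 1 = (θ b - 1) * ψ b + (ψ b - 1) by ring]
  refine (norm_add_le _ _).trans (le_of_eq ?_)
  rw [norm_mul, Sa.norm_char, mul_one]

theorem norm_neg_sub (ψ : AddChar G ℂ) (b : G) : ‖(-ψ) b - 1‖ = ‖ψ b - 1‖ := by
  rw [AddChar.neg_apply, AddChar.map_neg_eq_conj, ← Complex.norm_conj, map_sub, Complex.conj_conj,
    map_one]

/-- the Riesz product -/
noncomputable def rz (c s : ℝ) (ω : AddChar G ℂ → ℂ) (Λ : Finset (AddChar G ℂ)) (x : G) : ℝ :=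
  ∏ ψ ∈ Λ, (c + s * (ω ψ * ψ x).re)

theorem rz_twist {σ : G → ℝ} {c s κ : ℝ} (c0 : 0 ≤ c) (s0 : 0 ≤ s) {ω : AddChar G ℂ → ℂ}
    (hω : ∀ γ, ‖ω γ‖ ≤ 1) (Λ : Finset (AddChar G ℂ)) : ∀ χ : AddChar G ℂ,
    (∀ θ, Near Λ θ → ‖wf σ (χ + θ)‖ ≤ κ) →
      ‖∑ x, (σ x * rz c s ω Λ x : ℝ) * χ x‖ ≤ κ * (c + s) ^ #Λ := by
  classical
  induction Λ using Finset.induction_on with
  | empty => intro χ h; simpa [rz, wf] using h 0 fun b => by simp
  | insert ψ Λ n ih =>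
    intro χ h
    have κ0 : 0 ≤ κ := (norm_nonneg _).trans (h 0 fun b => by simpa using sum_nonneg fun _ _ => norm_nonneg _)
    have h0 := ih χ fun θ k => h θ fun b => by
      rw [sum_insert n]; linarith [k b, norm_nonneg (ψ b - 1)]
    have h1 := ih (χ + ψ) fun θ k => by
      rw [add_assoc]
      exact h _ fun b => by rw [sum_insert n]; linarith [k b, norm_add_sub ψ θ b]
    have h2 := ih (χ + -ψ) fun θ k => by
      rw [add_assoc]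
      exact h _ fun b => by rw [sum_insert n]; linarith [k b, norm_add_sub (-ψ) θ b, norm_neg_sub ψ b]
    have e : ∑ x, ((σ x * rz c s ω (insert ψ Λ) x : ℝ) : ℂ) * χ x =
        c * ∑ x, (σ x * rz c s ω Λ x : ℝ) * χ x + (s / 2 : ℝ) *
          (ω ψ * ∑ x, (σ x * rz c s ω Λ x : ℝ) * (χ + ψ) x +
            conj (ω ψ) * ∑ x, (σ x * rz c s ω Λ x : ℝ) * (χ + -ψ) x) := by
      simp only [mul_sum, ← sum_add_distrib, mul_add]
      refine sum_congr rfl fun x _ => ?_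
      rw [rz, prod_insert n, ← rz, AddChar.add_apply, AddChar.add_apply, AddChar.neg_apply,
        AddChar.map_neg_eq_conj]
      push_cast
      rw [Complex.re_eq_add_conj, map_mul]; ring
    rw [e, card_insert_of_notMem n, pow_succ]
    refine (norm_add_le _ _).trans ?_
    rw [norm_mul, norm_mul, Complex.norm_real, Complex.norm_real, Real.norm_of_nonneg c0,
      Real.norm_of_nonneg (by positivity)]
    have a1 := (norm_mul_le (ω ψ) _).trans (mul_le_mul (hω ψ) h1 (norm_nonneg _) zero_le_one)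
    have a2 := (norm_mul_le (conj (ω ψ)) _).trans (mul_le_mul ((Complex.norm_conj _).trans_le (hω ψ))
      h2 (norm_nonneg _) zero_le_one)
    have a3 := mul_le_mul_of_nonneg_left ((norm_add_le _ _).trans (add_le_add a1 a2))
      (by positivity : 0 ≤ s / 2)
    have a4 := mul_le_mul_of_nonneg_left h0 c0
    linarith

theorem rz_insert [DecidableEq (AddChar G ℂ)] {σ : G → ℝ} {c s κ : ℝ} (c0 : 0 ≤ c) (s0 : 0 ≤ s)
    {ω : AddChar G ℂ → ℂ} (hω : ∀ γ, ‖ω γ‖ ≤ 1) {Λ : Finset (AddChar G ℂ)} {γ : AddChar G ℂ}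
    (n : γ ∉ Λ) (h : ∀ θ, Near Λ θ → ‖wf σ (γ + θ)‖ ≤ κ)
    (k : ∑ x, σ x * rz c s ω Λ x ≤ c ^ #Λ + κ * (c + s) ^ #Λ) :
    ∑ x, σ x * rz c s ω (insert γ Λ) x ≤ c ^ #(insert γ Λ) + κ * (c + s) ^ #(insert γ Λ) := by
  have e : ∑ x, σ x * rz c s ω (insert γ Λ) x = c * ∑ x, σ x * rz c s ω Λ x +
      s * (ω γ * ∑ x, (σ x * rz c s ω Λ x : ℝ) * γ x).re := by
    simp only [mul_sum, Complex.re_sum, ← sum_add_distrib]
    refine sum_congr rfl fun x _ => ?_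
    rw [rz, prod_insert n, ← rz, mul_left_comm (ω γ), Complex.re_ofReal_mul]; ring
  have a := mul_le_mul_of_nonneg_left ((Complex.re_le_norm _).trans ((norm_mul_le (ω γ) _).trans
    (mul_le_mul (hω γ) (rz_twist c0 s0 hω Λ γ h) (norm_nonneg _) zero_le_one))) s0
  rw [e, card_insert_of_notMem n, pow_succ, pow_succ]
  linarith [mul_le_mul_of_nonneg_left k c0]

theorem card_rz {σ ν : G → ℝ} (hσ : Pr σ) (hν : Pr ν) {L : ℕ} (h : ∀ x, ν x ≤ 2 ^ L * σ x)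
    {Λ : Finset (AddChar G ℂ)} (hΛ : ∀ γ ∈ Λ, 1 / 2 ≤ ‖wf ν γ‖)
    (k : ∀ ω : AddChar G ℂ → ℂ, (∀ γ, ‖ω γ‖ ≤ 1) →
      ∑ x, σ x * rz (Real.cosh (1 / 2)) (Real.sinh (1 / 2)) ω Λ x ≤ Real.cosh (1 / 2) ^ #Λ + 1) :
    #Λ ≤ 8 * L + 8 := by
  choose ω h1 h2 using fun γ => Complex.exists_norm_eq_mul_self (wf ν γ)
  obtain ⟨u, hu⟩ : ∃ u : G → ℝ, ∀ x, u x = ∑ γ ∈ Λ, (ω γ * γ x).re * (1 / 2) := ⟨_, fun _ => rfl⟩
  have a : (#Λ : ℝ) / 4 ≤ ∑ x, ν x * u x := by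
    simp only [hu, mul_sum]
    rw [sum_comm, div_eq_mul_one_div, ← nsmul_eq_mul]
    refine card_nsmul_le_sum _ _ _ fun γ c => ?_
    have : ∑ x, ν x * ((ω γ * γ x).re * (1 / 2)) = (ω γ * wf ν γ).re / 2 := by
      rw [wf, mul_sum, Complex.re_sum, sum_div]
      exact sum_congr rfl fun x _ => by rw [mul_left_comm (ω γ), Complex.re_ofReal_mul]; ring
    rw [this, ← h2, Complex.ofReal_re]
    linarith [hΛ γ c]
  have b : Real.exp (∑ x, ν x * u x) ≤ ∑ x, ν x * Real.exp (u x) :=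
    convexOn_exp.map_sum_le (fun x _ => hν.1 x) hν.2 fun _ _ => Set.mem_univ _
  have c : ∑ x, ν x * Real.exp (u x) ≤ 2 ^ L * (Real.cosh (1 / 2) ^ #Λ + 1) := by
    refine le_trans ?_ (mul_le_mul_of_nonneg_left (k ω fun γ => (h1 γ).le) (by positivity))
    rw [mul_sum]
    refine sum_le_sum fun x _ => ?_
    rw [← mul_assoc]
    refine mul_le_mul (h x) ?_ (Real.exp_pos _).le (mul_nonneg (by positivity) (hσ.1 x))
    rw [hu, Real.exp_sum]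
    refine prod_le_prod (fun _ _ => (Real.exp_pos _).le) fun γ _ => ?_
    rw [mul_comm (Real.sinh _)]
    refine Real.exp_mul_le_cosh_add_mul_sinh ((Complex.abs_re_le_norm _).trans ?_) _
    rw [norm_mul, Sa.norm_char, mul_one, h1]
  have d : Real.cosh (1 / 2) ^ #Λ ≤ Real.exp (#Λ / 8) := by
    refine (pow_le_pow_left₀ (Real.cosh_pos _).le (Real.cosh_le_exp_half_sq _) _).trans_eq ?_
    rw [← Real.exp_nat_mul]; congr 1; ring
  have e2 : (2 : ℝ) ^ (L + 1) ≤ Real.exp (L + 1 : ℕ) := by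
    rw [← mul_one ((L + 1 : ℕ) : ℝ), Real.exp_nat_mul]
    exact pow_le_pow_left₀ zero_le_two (by linarith [Real.add_one_le_exp 1]) _
  have f : (1 : ℝ) ≤ Real.exp (#Λ / 8) := Real.one_le_exp (by positivity)
  have g : Real.exp (#Λ / 4) ≤ Real.exp ((L + 1 : ℕ) + #Λ / 8) := by
    rw [Real.exp_add]
    refine (Real.exp_le_exp.2 a).trans (b.trans (c.trans (le_trans ?_
      (mul_le_mul_of_nonneg_right e2 (Real.exp_pos _).le))))
    rw [pow_succ, mul_assoc]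
    exact mul_le_mul_of_nonneg_left (by linarith) (by positivity)
  have := Real.exp_le_exp.1 g
  have : (#Λ : ℝ) ≤ (8 * L + 8 : ℕ) := by push_cast at this ⊢; linarith
  exact_mod_cast this

/-- **local Chang lemma** -/
theorem chang {σ ν : G → ℝ} (hσ : Pr σ) (hν : Pr ν) {L : ℕ} (h : ∀ x, ν x ≤ 2 ^ L * σ x) :
    ∃ Λ : Finset (AddChar G ℂ), #Λ ≤ 8 * L + 8 ∧ ∀ γ, 1 / 2 ≤ ‖wf ν γ‖ → ∀ b,
      ‖γ b - 1‖ ≤ ∑ ψ ∈ Λ, ‖ψ b - 1‖ + 2 ^ (8 * L + 9) * tv σ b := by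
  classical
  obtain ⟨c, hc⟩ : ∃ c, c = Real.cosh (1 / 2) := ⟨_, rfl⟩
  obtain ⟨s, hs⟩ : ∃ s, s = Real.sinh (1 / 2) := ⟨_, rfl⟩
  have c0 : 0 ≤ c := hc ▸ (Real.cosh_pos _).le
  have s0 : 0 ≤ s := hs ▸ Real.sinh_nonneg_iff.2 (by norm_num)
  have cs : c + s ≤ 2 := by
    rw [hc, hs, Real.cosh_add_sinh]
    have := Real.exp_one_lt_d9
    rw [show (1 : ℝ) = 1 / 2 + 1 / 2 by norm_num, Real.exp_add] at this
    nlinarith [Real.exp_pos (1 / 2)]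
  obtain ⟨κ, hκ⟩ : ∃ κ : ℝ, κ = 1 / 2 ^ (8 * L + 9) := ⟨_, rfl⟩
  have κ0 : 0 < κ := by rw [hκ]; positivity
  obtain ⟨Λ, ⟨l1, l2, l3⟩, hm⟩ := Set.exists_max_image {Λ : Finset (AddChar G ℂ) |
    (∀ γ ∈ Λ, 1 / 2 ≤ ‖wf ν γ‖) ∧ #Λ ≤ 8 * L + 9 ∧ ∀ ω : AddChar G ℂ → ℂ, (∀ γ, ‖ω γ‖ ≤ 1) →
      ∑ x, σ x * rz c s ω Λ x ≤ c ^ #Λ + κ * (c + s) ^ #Λ} card (Set.toFinite _)
    ⟨∅, by simp, by simp, fun ω _ => by simp [rz, hσ.2, κ0.le]⟩
  have l4 : #Λ ≤ 8 * L + 8 := card_rz hσ hν h l1 fun ω k => by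
    rw [← hc, ← hs]
    refine (l3 ω k).trans (add_le_add_right ?_ _)
    rw [hκ, one_div, inv_mul_le_iff₀ (by positivity), mul_one]
    exact (pow_le_pow_left₀ (by positivity) cs _).trans (pow_le_pow_right₀ one_le_two l2)
  refine ⟨Λ, l4, fun γ hγ b => ?_⟩
  have t0 : 0 ≤ 2 ^ (8 * L + 9) * tv σ b := mul_nonneg (by positivity) (tv_nonneg _ _)
  by_cases n : γ ∈ Λ
  · linarith [single_le_sum (f := fun ψ : AddChar G ℂ => ‖ψ b - 1‖) (fun _ _ => norm_nonneg _) n]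
  by_cases k : ∀ θ, Near Λ θ → ‖wf σ (γ + θ)‖ ≤ κ
  · have := hm (insert γ Λ) ⟨by simpa only [forall_mem_insert] using ⟨hγ, l1⟩,
      by rw [card_insert_of_notMem n]; omega, fun ω hω => rz_insert c0 s0 hω n k (l3 ω hω)⟩
    rw [card_insert_of_notMem n] at this
    omega
  push Not at k
  obtain ⟨θ, k1, k2⟩ := k
  have a := (mul_le_mul_of_nonneg_right k2.le (norm_nonneg _)).trans (wf_mul_le σ (γ + θ) b)
  rw [hκ, one_div, inv_mul_le_iff₀ (by positivity)] at a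
  have e := norm_add_sub (γ + θ) (-θ) b
  rw [add_neg_cancel_right, norm_neg_sub] at e
  linarith [k1 b]

end Crest.Agent.N49.Lo
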