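import Crest.Agent.N49.Sa.Ap

/-!
# Row 49 (helper72): weights on a finite abelian group, total variation under shifts
-/

set_option autoImplicit false
open Finset
open scoped BigOperators ComplexConjugate

namespace Crest.Agent.N49.Lo

/-- probability weights -/
def Pr {α : Type*} [Fintype α] (w : α → ℝ) : Prop := (∀ x, 0 ≤ w x) ∧ ∑ x, w x = 1

variable {G : Type*} [AddCommGroup G] [Fintype G]

/-- total variation under a shift -/
def tv (w : G → ℝ) (t : G) : ℝ := ∑ x, |w (x + t) - w x|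

/-- Fourier transform of a weight -/
noncomputable def wf (w : G → ℝ) (γ : AddChar G ℂ) : ℂ := ∑ x, w x * γ x

/-- the average of `f (z - y + x)`, `x ∼ a`, `y ∼ b` -/
def T (a b f : G → ℝ) (z : G) : ℝ := ∑ y, b y * ∑ x, a x * f (z - y + x)

theorem tv_nonneg (w : G → ℝ) (t : G) : 0 ≤ tv w t := sum_nonneg fun _ _ => abs_nonneg _

theorem tv_zero (w : G → ℝ) : tv w 0 = 0 := by simp [tv]

theorem sum_shift {M : Type*} [AddCommMonoid M] (t : G) (F : G → M) : ∑ x, F (x + t) = ∑ x, F x :=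
  Equiv.sum_comp (Equiv.addRight t) F

theorem tv_neg (w : G → ℝ) (t : G) : tv w (-t) = tv w t := by
  rw [tv, ← sum_shift t]
  exact sum_congr rfl fun x _ => by rw [add_neg_cancel_right, abs_sub_comm]

theorem tv_add (w : G → ℝ) (s t : G) : tv w (s + t) ≤ tv w s + tv w t := by
  rw [tv, tv, tv, ← sum_shift t fun x => |w (x + s) - w x|, ← sum_add_distrib]
  refine sum_le_sum fun x _ => ?_
  rw [add_comm s, ← add_assoc]
  exact abs_sub_le _ _ _

theorem tv_sub (w : G → ℝ) (s t : G) : tv w (s - t) ≤ tv w s + tv w t := by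
  rw [sub_eq_add_neg, ← tv_neg w t]; exact tv_add ..

/-- moving a bounded function -/
theorem abs_shift (w : G → ℝ) {F : G → ℝ} {B : ℝ} (h : ∀ x, |F x| ≤ B) (t : G) :
    |∑ x, w x * F (x - t) - ∑ x, w x * F x| ≤ B * tv w t := by
  rw [← sum_shift t, ← sum_sub_distrib, tv, mul_sum]
  refine (abs_sum_le_sum_abs _ _).trans (sum_le_sum fun x _ => ?_)
  rw [add_sub_cancel_right, ← sub_mul, abs_mul, mul_comm]
  exact mul_le_mul_of_nonneg_right (h x) (abs_nonneg _)

theorem Pr.le {α : Type*} [Fintype α] {w F : α → ℝ} (hw : Pr w) {B : ℝ} (h : ∀ x, F x ≤ B) :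
    ∑ x, w x * F x ≤ B :=
  (sum_le_sum fun x _ => mul_le_mul_of_nonneg_left (h x) (hw.1 x)).trans_eq
    (by rw [← sum_mul, hw.2, one_mul])

theorem Pr.ge {α : Type*} [Fintype α] {w F : α → ℝ} (hw : Pr w) {B : ℝ} (h : ∀ x, B ≤ F x) :
    B ≤ ∑ x, w x * F x :=
  le_trans (by rw [← sum_mul, hw.2, one_mul])
    (sum_le_sum fun x _ => mul_le_mul_of_nonneg_left (h x) (hw.1 x))

theorem Pr.const {α : Type*} [Fintype α] {w : α → ℝ} (hw : Pr w) (B : ℝ) : ∑ x, w x * B = B := by
  rw [← sum_mul, hw.2, one_mul]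

theorem Pr.exists_ge {α : Type*} [Fintype α] {w : α → ℝ} (hw : Pr w) (F : α → ℝ) :
    ∃ x, ∑ y, w y * F y ≤ F x := by
  have : Nonempty α := by
    by_contra c
    have := hw.2
    rw [not_nonempty_iff] at c
    simp at this
  obtain ⟨x, hx⟩ := Finite.exists_max F
  exact ⟨x, hw.le hx⟩

theorem norm_wf {w : G → ℝ} (hw : Pr w) (γ : AddChar G ℂ) : ‖wf w γ‖ ≤ 1 := by
  refine (norm_sum_le _ _).trans (le_of_eq ?_)
  rw [← hw.2]
  exact sum_congr rfl fun x _ => by
    rw [norm_mul, Sa.norm_char, mul_one, Complex.norm_real, Real.norm_of_nonneg (hw.1 x)]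

/-- a character with a large coefficient is almost constant along quasi-periods -/
theorem wf_mul_le (w : G → ℝ) (γ : AddChar G ℂ) (b : G) : ‖wf w γ‖ * ‖γ b - 1‖ ≤ tv w b := by
  have e : wf w γ * (γ b - 1) = γ b * ∑ x, ((w x - w (x + b) : ℝ) : ℂ) * γ x := by
    rw [mul_sub, mul_one, wf]
    nth_rewrite 2 [← sum_shift b]
    rw [sum_mul, mul_sum, ← sum_sub_distrib]
    refine sum_congr rfl fun x _ => ?_
    rw [AddChar.map_add_eq_mul]; push_cast; ring
  rw [← norm_mul, e, norm_mul, Sa.norm_char, one_mul]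
  refine (norm_sum_le _ _).trans (le_of_eq (sum_congr rfl fun x _ => ?_))
  rw [norm_mul, Sa.norm_char, mul_one, Complex.norm_real, Real.norm_eq_abs, abs_sub_comm]

end Crest.Agent.N49.Lo
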